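import Mathlib
import Vale.Agent.Lib.P243.Defs

/-!
# P243: definitions for the universal improvement `r_3 > 1/3`

`Ahat K w` is the volume of `K + [0, w]` minus the volume of `K`; for a compact convex `K`
it equals `‖w‖` times the area of the orthogonal projection of `K` along `w`.
`avgSeg g p q` is the average of `g` over the segment from `p` to `q`.
`Good K g Θ` says that the density `g` calibrates `K` with constant `Θ`.
-/

namespace Vale.Agent.Lib.P243.R3

open MeasureTheory Set
open scoped Pointwise

/-- Euclidean 3-space. -/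
abbrev E3 : Type := EuclideanSpace ℝ (Fin 3)

/-- A convex body: compact, convex, nonempty interior. -/
structure Body (K : Set E3) : Prop where
  conv : Convex ℝ K
  compact : IsCompact K
  int : (interior K).Nonempty

/-- `vol (K + [0, w]) - vol K`. -/
noncomputable def Ahat (K : Set E3) (w : E3) : ℝ :=
  (volume (K + segment ℝ (0 : E3) w)).toReal - (volume K).toReal

/-- The average of `g` over the segment from `p` to `q`. -/
noncomputable def avgSeg (g : E3 → ℝ) (p q : E3) : ℝ :=
  ∫ t in (0 : ℝ)..1, g (p + t • (q - p))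

/-- The density `g` calibrates `K` with constant `Θ`. -/
def Good (K : Set E3) (g : E3 → ℝ) (Θ : ℝ) : Prop :=
  Continuous g ∧ (∀ x, 1 ≤ g x ∧ g x ≤ 2) ∧
    ∀ p ∈ K, ∀ q ∈ K, avgSeg g p q * Ahat K (q - p) ≤ Θ * ∫ x in K, g x

/-- The affine map `x ↦ L x + v`. -/
def aff (L : E3 ≃L[ℝ] E3) (v : E3) (x : E3) : E3 := L x + v

/-- The homothety of ratio `r` about `c`. -/
def hom (c : E3) (r : ℝ) (x : E3) : E3 := c + r • (x - c)

/-- The standard simplex with vertices `0, e_0, e_1, e_2`. -/
def Simp3 : Set E3 :=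
  {x | (∀ i, 0 ≤ x i) ∧ x 0 + x 1 + x 2 ≤ 1}

/-- The cube `[-1, 1]^3`. -/
def Cube3 : Set E3 := {x | ∀ i, |x i| ≤ 1}

/-- The bump function of a set `V` at scale `τ`. -/
noncomputable def bump (V : Set E3) (τ : ℝ) (x : E3) : ℝ :=
  max 0 (1 - Metric.infDist x V / τ)

end Vale.Agent.Lib.P243.R3
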