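import Mathlib
import Vale.Agent.Lib.P243.Defs
import Vale.Agent.Lib.P243.R3.Defs

/-!
# P243: from the directionwise inequality to the inequality with the minimal projection area
-/

namespace Vale.Agent.Lib.P243.R3

open MeasureTheory Set Vale.Agent.Lib.P243

/-- If the base areas divided by the areas of the corresponding projections of `K` add up to at
least `c`, then the base areas add up to at least `c` times the minimal projection area. -/
theorem amin_of_ratio (c : ENNReal) (K : Set E3) {m : ℕ} (a b : Fin m → E3)
    (hab : ∀ i, OrthoPair (a i) (b i)) (S : Fin m → Set (ℝ × ℝ))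
    (h : c ≤ ∑ i, volume (S i) / volume (planeCoords (a i) (b i) '' K)) :
    c * (⨅ (a' : E3) (b' : E3) (_ : OrthoPair a' b'), volume (planeCoords a' b' '' K))
      ≤ ∑ i, volume (S i) := by
  set A : ENNReal := ⨅ (a' : E3) (b' : E3) (_ : OrthoPair a' b'),
    volume (planeCoords a' b' '' K) with hA
  have hle : ∀ i, A ≤ volume (planeCoords (a i) (b i) '' K) := fun i =>
    iInf_le_of_le (a i) (iInf_le_of_le (b i) (iInf_le_of_le (hab i) le_rfl))
  have h2 : c ≤ (∑ i, volume (S i)) / A := by
    refine h.trans ?_
    rw [ENNReal.div_eq_inv_mul, Finset.mul_sum]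
    refine Finset.sum_le_sum fun i _ => ?_
    rw [← ENNReal.div_eq_inv_mul]
    exact ENNReal.div_le_div_left (hle i) _
  rcases eq_or_ne A 0 with h0 | h0
  · rw [h0, mul_zero]
    exact zero_le
  rcases eq_or_ne A ⊤ with ht | ht
  · rw [ht, ENNReal.div_top] at h2
    have hc : c = 0 := le_antisymm h2 zero_le
    rw [hc, zero_mul]
    exact zero_le
  exact (ENNReal.le_div_iff_mul_le (Or.inl h0) (Or.inl ht)).1 h2

end Vale.Agent.Lib.P243.R3
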