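import Mathlib
import Vale.Agent.Lib.P243.R3.Defs

/-!
# P243, `r_3 > 1/3`: definitions for the module M4 (chords with the star property)

`Star K p q`: every boundary point of `K` is joined to `p` or to `q` by a segment inside the
boundary. `Facet K f M`: the plane `f = M` supports `K` and contains three non-collinear
points of `K`.
-/

namespace Vale.Agent.Lib.P243.R3

/-- The chord `[p, q]` of `K` has the star property. -/
def Star (K : Set E3) (p q : E3) : Prop :=
  p ∈ K ∧ q ∈ K ∧ p ≠ q ∧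
    ∀ x ∈ frontier K, segment ℝ p x ⊆ frontier K ∨ segment ℝ q x ⊆ frontier K

/-- The plane `f = M` supports `K` and contains three non-collinear points of `K`. -/
def Facet (K : Set E3) (f : E3 →L[ℝ] ℝ) (M : ℝ) : Prop :=
  f ≠ 0 ∧ (∀ k ∈ K, f k ≤ M) ∧
    ∃ u1 u2 u3 : E3, u1 ∈ K ∧ u2 ∈ K ∧ u3 ∈ K ∧ f u1 = M ∧ f u2 = M ∧ f u3 = M ∧
      LinearIndependent ℝ ![u2 - u1, u3 - u1]

end Vale.Agent.Lib.P243.R3
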