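import Mathlib
import Vale.Agent.Lib.P243.Defs
import Vale.Agent.Lib.P243.R3.Defs
import Vale.Agent.Lib.P243.Transfer

/-!
# P243, `r_3 > 1/3`, module M0: a volume-preserving linear chart adapted to an orthonormal pair

For an orthonormal pair `a, b` of Euclidean 3-space there are a unit vector `u` orthogonal to
both and a continuous linear equivalence `L z = z.1 • u + z.2.1 • a + z.2.2 • b` from
`ℝ × ℝ × ℝ` which preserves the volume of every set.
-/

namespace Vale.Agent.Lib.P243.R3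

open MeasureTheory Set Vale.Agent.Lib.P243 Vale.Agent.Lib.P243.R3
open scoped Pointwise

/-- The coordinates of `x` along `c 2`, `c 0`, `c 1` (in this order) in an orthonormal basis `c`,
as a measurable equivalence. -/
noncomputable def M0_coords (c : OrthonormalBasis (Fin 3) ℝ E3) : E3 ≃ᵐ ℝ × ℝ × ℝ :=
  c.measurableEquiv.trans
    ((MeasurableEquiv.toLp 2 (Fin 3 → ℝ)).symm.trans
      ((MeasurableEquiv.piFinSuccAbove (fun _ : Fin 3 => ℝ) 2).trans
        (MeasurableEquiv.prodCongr (MeasurableEquiv.refl ℝ) MeasurableEquiv.finTwoArrow)))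

lemma M0_coords_apply (c : OrthonormalBasis (Fin 3) ℝ E3) (y : E3) :
    M0_coords c y = (inner ℝ (c 2) y, inner ℝ (c 0) y, inner ℝ (c 1) y) := by
  rw [← c.repr_apply_apply, ← c.repr_apply_apply, ← c.repr_apply_apply]
  rfl

lemma M0_measurePreserving_coords (c : OrthonormalBasis (Fin 3) ℝ E3) :
    MeasurePreserving (M0_coords c) volume volume :=
  c.measurePreserving_measurableEquiv.trans
    ((EuclideanSpace.volume_preserving_symm_measurableEquiv_toLp (Fin 3)).trans
      ((volume_preserving_piFinSuccAbove (fun _ : Fin 3 => ℝ) 2).trans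
        ((MeasurePreserving.id volume).prod (volume_preserving_finTwoArrow ℝ))))

theorem M0_chart (a b : E3) (hab : OrthoPair a b) :
    ∃ (u : E3) (L : (ℝ × ℝ × ℝ) ≃L[ℝ] E3), ‖u‖ = 1 ∧ inner ℝ u a = 0 ∧ inner ℝ u b = 0 ∧
      (∀ z : ℝ × ℝ × ℝ, L z = z.1 • u + z.2.1 • a + z.2.2 • b) ∧
      (∀ z : ℝ × ℝ × ℝ, planeCoords a b (L z) = z.2) ∧
      (∀ X : Set (ℝ × ℝ × ℝ), volume (L '' X) = volume X) := by
  obtain ⟨ha, hb, hab0⟩ := hab
  have hba0 : inner ℝ b a = 0 := by rw [real_inner_comm]; exact hab0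
  obtain ⟨c, hc0, hc1⟩ := exists_basis_three (W := E3) finrank_euclideanSpace_fin a b ha hb hba0
  obtain ⟨u, hu⟩ : ∃ u : E3, u = c 2 := ⟨_, rfl⟩
  have hu1 : ‖u‖ = 1 := by rw [hu]; exact c.orthonormal.1 2
  have hua : inner ℝ u a = 0 := by
    have h : inner ℝ (c 2) (c 0) = 0 := c.orthonormal.2 (show (2 : Fin 3) ≠ 0 by decide)
    rwa [hc0, ← hu] at h
  have hub : inner ℝ u b = 0 := by
    have h : inner ℝ (c 2) (c 1) = 0 := c.orthonormal.2 (show (2 : Fin 3) ≠ 1 by decide)
    rwa [hc1, ← hu] at h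
  have hau : inner ℝ a u = 0 := by rw [real_inner_comm]; exact hua
  have hbu : inner ℝ b u = 0 := by rw [real_inner_comm]; exact hub
  have huu : inner ℝ u u = 1 := by rw [real_inner_self_eq_norm_sq, hu1]; norm_num
  have haa : inner ℝ a a = 1 := by rw [real_inner_self_eq_norm_sq, ha]; norm_num
  have hbb : inner ℝ b b = 1 := by rw [real_inner_self_eq_norm_sq, hb]; norm_num
  -- the two continuous linear maps
  let f₁ : (ℝ × ℝ × ℝ) →L[ℝ] E3 :=
    (ContinuousLinearMap.fst ℝ ℝ (ℝ × ℝ)).smulRight u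
      + ((ContinuousLinearMap.fst ℝ ℝ ℝ).comp (ContinuousLinearMap.snd ℝ ℝ (ℝ × ℝ))).smulRight a
      + ((ContinuousLinearMap.snd ℝ ℝ ℝ).comp (ContinuousLinearMap.snd ℝ ℝ (ℝ × ℝ))).smulRight b
  let f₂ : E3 →L[ℝ] (ℝ × ℝ × ℝ) := (innerSL ℝ u).prod ((innerSL ℝ a).prod (innerSL ℝ b))
  have hf₁ : ∀ z : ℝ × ℝ × ℝ, f₁ z = z.1 • u + z.2.1 • a + z.2.2 • b := fun z => rfl
  have hf₂ : ∀ x : E3, f₂ x = (inner ℝ u x, inner ℝ a x, inner ℝ b x) := fun x => rfl
  have hexp : ∀ x : E3, inner ℝ u x • u + inner ℝ a x • a + inner ℝ b x • b = x := by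
    intro x
    have h := c.sum_repr' x
    rw [Fin.sum_univ_three, hc0, hc1, ← hu] at h
    calc inner ℝ u x • u + inner ℝ a x • a + inner ℝ b x • b
        = inner ℝ a x • a + inner ℝ b x • b + inner ℝ u x • u := by abel
      _ = x := h
  have h21 : Function.LeftInverse f₂ f₁ := by
    intro z
    rw [hf₂, hf₁]
    simp only [inner_add_right, inner_smul_right, huu, hua, hub, hau, haa, hab0, hbu, hba0, hbb]
    ext <;> simp
  have h12 : Function.RightInverse f₂ f₁ := by
    intro x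
    rw [hf₁, hf₂]
    exact hexp x
  let L : (ℝ × ℝ × ℝ) ≃L[ℝ] E3 := ContinuousLinearEquiv.equivOfInverse f₁ f₂ h21 h12
  have hL : ∀ z : ℝ × ℝ × ℝ, L z = z.1 • u + z.2.1 • a + z.2.2 • b := fun z => rfl
  have hcoords : ∀ x : E3, M0_coords c x = f₂ x := by
    intro x
    rw [M0_coords_apply, hf₂, hc0, hc1, ← hu]
  refine ⟨u, L, hu1, hua, hub, hL, ?_, ?_⟩
  · intro z
    rw [hL]
    unfold planeCoords
    simp only [inner_add_left, inner_smul_left, hua, hub, haa, hab0, hba0, hbb]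
    ext <;> simp
  · intro X
    have himage : L '' X = (M0_coords c) ⁻¹' X := by
      ext x
      constructor
      · rintro ⟨z, hz, rfl⟩
        show M0_coords c (L z) ∈ X
        rw [hcoords]
        have : f₂ (L z) = z := h21 z
        rw [this]
        exact hz
      · intro hx
        have hx' : f₂ x ∈ X := by rw [← hcoords]; exact hx
        exact ⟨f₂ x, hx', h12 x⟩
    rw [himage]
    exact (M0_measurePreserving_coords c).measure_preimage_equiv X

end Vale.Agent.Lib.P243.R3
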