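import Mathlib
import Vale.Agent.Lib.P243.Defs
import Vale.Agent.Lib.P243.R3.Defs
import Vale.Agent.Lib.P243.R3.helper6.TriEVol
import Vale.Agent.Lib.P243.R3.helper45.ModelSweep
import Vale.Agent.Lib.P243.R3.helper23.AhatArea
import Vale.Agent.Lib.P243.R3.helper40.PerpPair
import Vale.Agent.Lib.P243.R3.helper99.AhatAff
import Vale.Agent.Lib.P243.R3.helper76.AhatCont

/-!
# P243, `r_3 > 1/3`: module M1 (the functional `Ahat`), skeleton names

This file collects the module M1 under the names of the skeleton: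
`M1a_Ahat_eq_area`, `M1b_exists_perp_pair`, `M1c_Ahat_mono`, `M1d_Ahat_aff`, `M1e_Ahat_hom`,
`M1f_Ahat_continuous`, `M1g_Ahat_nonneg`. The statements `M1b`, `M1d`, `M1e`, `M1f`, `M1g`
come from the imported files under exactly these names.
-/

namespace Vale.Agent.Lib.P243.R3

open MeasureTheory Set Vale.Agent.Lib.P243
open scoped Pointwise

/-- `Ahat K w` is `‖w‖` times the area of the projection of `K` along `w`. -/
theorem M1a_Ahat_eq_area {K : Set E3} (hKc : IsCompact K) (hKv : Convex ℝ K)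
    (a b : E3) (hab : OrthoPair a b) (w : E3) (hwa : inner ℝ w a = 0) (hwb : inner ℝ w b = 0) :
    Ahat K w = ‖w‖ * (volume (planeCoords a b '' K)).toReal :=
  M1a_of M1i_triE_volume (fun _ hK hc s => M1s_model_sweep hK hc s) hKc hKv a b hab w hwa hwb

/-- `Ahat` is monotone in the body. -/
theorem M1c_Ahat_mono {K K' : Set E3} (hKc : IsCompact K) (hKv : Convex ℝ K)
    (hK'c : IsCompact K') (hK'v : Convex ℝ K') (h : K ⊆ K') (w : E3) :
    Ahat K w ≤ Ahat K' w :=
  M1c_of (fun _ hKc hKv a b hab w hwa hwb => M1a_Ahat_eq_area hKc hKv a b hab w hwa hwb)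
    M1b_exists_perp_pair hKc hKv hK'c hK'v h w

end Vale.Agent.Lib.P243.R3
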