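import Mathlib
import Vale.Agent.Lib.P243.Defs
import Vale.Agent.Lib.P243.R3.Defs
import Vale.Agent.Lib.P243.Coord2
import Vale.Agent.Lib.P243.R3.M0

/-!
# P243, `r_3 > 1/3`, module M2: the dual-measure lemma (core, `Ahat` formula as hypothesis)

If the density `g` calibrates `K` with constant `Θ`, then every covering of `K` by
cylinders over sets `S i` in the coordinate planes `(a i, b i)` has
`∑ i, vol (S i) / vol (P_i K) ≥ 1 / Θ`.
-/

namespace Vale.Agent.Lib.P243.R3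

open MeasureTheory Set Vale.Agent.Lib.P243
open scoped Pointwise

theorem M2_continuous_planeCoords (a b : E3) : Continuous (planeCoords a b) := by
  unfold planeCoords
  fun_prop

/-- The fibre bound: in the chart `L`, the integral of `g` over the fibre of `K` above `y`
is at most `c`, provided `t * avgSeg g p q ≤ c` for all chords `q - p = t • u` of `K`. -/
theorem M2_fibre {K : Set E3} (hKc : IsCompact K) {g : E3 → ℝ} (hgc : Continuous g)
    (hg0 : ∀ x, 0 ≤ g x) (u a b : E3) (L : (ℝ × ℝ × ℝ) ≃L[ℝ] E3)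
    (hL : ∀ z : ℝ × ℝ × ℝ, L z = z.1 • u + z.2.1 • a + z.2.2 • b)
    {c : ℝ}
    (hkey : ∀ p ∈ K, ∀ q ∈ K, ∀ t : ℝ, 0 ≤ t → q - p = t • u → t * avgSeg g p q ≤ c)
    (y : ℝ × ℝ) :
    ∫⁻ t in (fun t : ℝ => ((t, y) : ℝ × ℝ × ℝ)) ⁻¹' (L ⁻¹' K), ENNReal.ofReal (g (L (t, y)))
      ≤ ENNReal.ofReal c := by
  have hK'c : IsCompact (L ⁻¹' K) := L.toHomeomorph.isCompact_preimage.2 hKc
  set F : Set ℝ := (fun t : ℝ => ((t, y) : ℝ × ℝ × ℝ)) ⁻¹' (L ⁻¹' K) with hF
  rcases F.eq_empty_or_nonempty with hem | hne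
  · rw [hem]
    simp
  · have hFc : IsCompact F :=
      IsCompact.of_isClosed_subset (hK'c.image continuous_fst)
        (hK'c.isClosed.preimage (by fun_prop)) (fun t ht => ⟨(t, y), ht, rfl⟩)
    have ht0 : sInf F ∈ F := hFc.sInf_mem hne
    have ht1 : sSup F ∈ F := hFc.sSup_mem hne
    have hsub : F ⊆ Icc (sInf F) (sSup F) := fun t ht =>
      ⟨csInf_le hFc.bddBelow ht, le_csSup hFc.bddAbove ht⟩
    generalize sInf F = t0 at ht0 hsub
    generalize sSup F = t1 at ht1 hsub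
    have h01 : t0 ≤ t1 := (hsub ht0).2
    have hp : L (t0, y) ∈ K := ht0
    have hq : L (t1, y) ∈ K := ht1
    have hqp : L (t1, y) - L (t0, y) = (t1 - t0) • u := by
      rw [hL, hL]
      module
    have hk := hkey _ hp _ hq (t1 - t0) (sub_nonneg.2 h01) hqp
    -- the average over the chord is an interval integral
    have havg : avgSeg g (L (t0, y)) (L (t1, y))
        = ∫ s in (0 : ℝ)..1, g (L (t0 + (t1 - t0) * s, y)) := by
      unfold avgSeg
      congr 1
      funext s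
      congr 1
      rw [hqp, hL, hL]
      module
    have hsubst : (t1 - t0) * avgSeg g (L (t0, y)) (L (t1, y))
        = ∫ t in t0..t1, g (L (t, y)) := by
      rw [havg]
      have h := intervalIntegral.smul_integral_comp_add_mul (a := (0 : ℝ)) (b := 1)
        (fun t : ℝ => g (L (t, y))) (t1 - t0) t0
      simp only [smul_eq_mul, mul_zero, add_zero, mul_one] at h
      rw [h]
      congr 1
      ring
    have hcont : Continuous (fun t : ℝ => g (L ((t, y) : ℝ × ℝ × ℝ))) :=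
      hgc.comp (L.continuous.comp (by fun_prop))
    have hint : IntegrableOn (fun t : ℝ => g (L ((t, y) : ℝ × ℝ × ℝ))) (Icc t0 t1) volume :=
      hcont.integrableOn_Icc
    calc ∫⁻ t in F, ENNReal.ofReal (g (L (t, y)))
        ≤ ∫⁻ t in Icc t0 t1, ENNReal.ofReal (g (L (t, y))) := lintegral_mono_set hsub
      _ = ENNReal.ofReal (∫ t in Icc t0 t1, g (L (t, y))) :=
          (ofReal_integral_eq_lintegral_ofReal hint (ae_of_all _ fun t => hg0 _)).symm
      _ = ENNReal.ofReal (∫ t in t0..t1, g (L (t, y))) := by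
          rw [intervalIntegral.integral_of_le h01, integral_Icc_eq_integral_Ioc]
      _ ≤ ENNReal.ofReal c := by
          rw [← hsubst]
          exact ENNReal.ofReal_le_ofReal hk

/-- The capture bound for one cylinder with a measurable base. -/
theorem M2_claim {K : Set E3} (hKc : IsCompact K) {g : E3 → ℝ} (hgc : Continuous g)
    (hg0 : ∀ x, 0 ≤ g x) (u a b : E3) (L : (ℝ × ℝ × ℝ) ≃L[ℝ] E3)
    (hL : ∀ z : ℝ × ℝ × ℝ, L z = z.1 • u + z.2.1 • a + z.2.2 • b)
    (hpl : ∀ z : ℝ × ℝ × ℝ, planeCoords a b (L z) = z.2)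
    (hvol : ∀ X : Set (ℝ × ℝ × ℝ), volume (L '' X) = volume X)
    {c : ℝ}
    (hkey : ∀ p ∈ K, ∀ q ∈ K, ∀ t : ℝ, 0 ≤ t → q - p = t • u → t * avgSeg g p q ≤ c)
    (W : Set (ℝ × ℝ)) (hW : MeasurableSet W) :
    ∫⁻ x in K ∩ planeCoords a b ⁻¹' W, ENNReal.ofReal (g x) ≤ ENNReal.ofReal c * volume W := by
  have hLm : Measurable L := L.continuous.measurable
  have hmeas : (volume : Measure E3) = Measure.map L volume := by
    ext B hB
    rw [Measure.map_apply hLm hB, ← hvol, image_preimage_eq _ L.surjective]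
  have hAm : MeasurableSet (K ∩ planeCoords a b ⁻¹' W) :=
    hKc.measurableSet.inter ((M2_continuous_planeCoords a b).measurable hW)
  have hf : Measurable fun x : E3 => ENNReal.ofReal (g x) :=
    ENNReal.measurable_ofReal.comp hgc.measurable
  have hK'c : IsCompact (L ⁻¹' K) := L.toHomeomorph.isCompact_preimage.2 hKc
  have hpre : L ⁻¹' (K ∩ planeCoords a b ⁻¹' W) = (L ⁻¹' K) ∩ Prod.snd ⁻¹' W := by
    ext z
    simp only [mem_preimage, mem_inter_iff, hpl]
  have hAm' : MeasurableSet ((L ⁻¹' K) ∩ (Prod.snd ⁻¹' W : Set (ℝ × ℝ × ℝ))) :=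
    hK'c.measurableSet.inter (measurable_snd hW)
  have hF : Measurable fun z : ℝ × ℝ × ℝ => ENNReal.ofReal (g (L z)) := hf.comp hLm
  have hinner : ∀ y : ℝ × ℝ,
      ∫⁻ t : ℝ, ((L ⁻¹' K) ∩ (Prod.snd ⁻¹' W : Set (ℝ × ℝ × ℝ))).indicator
          (fun z : ℝ × ℝ × ℝ => ENNReal.ofReal (g (L z))) (t, y)
        ≤ W.indicator (fun _ => ENNReal.ofReal c) y := by
    intro y
    by_cases hy : y ∈ W
    · rw [indicator_of_mem hy]
      have hfm : MeasurableSet ((fun t : ℝ => ((t, y) : ℝ × ℝ × ℝ)) ⁻¹' (L ⁻¹' K)) :=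
        (hK'c.isClosed.preimage (by fun_prop)).measurableSet
      have e : (fun t : ℝ => ((L ⁻¹' K) ∩ (Prod.snd ⁻¹' W : Set (ℝ × ℝ × ℝ))).indicator
          (fun z : ℝ × ℝ × ℝ => ENNReal.ofReal (g (L z))) (t, y))
          = ((fun t : ℝ => ((t, y) : ℝ × ℝ × ℝ)) ⁻¹' (L ⁻¹' K)).indicator
              (fun t : ℝ => ENNReal.ofReal (g (L (t, y)))) := by
        funext t
        by_cases ht : L (t, y) ∈ K
        · rw [indicator_of_mem (show ((t, y) : ℝ × ℝ × ℝ) ∈ (L ⁻¹' K) ∩ Prod.snd ⁻¹' W from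
            ⟨ht, hy⟩), indicator_of_mem (show t ∈ (fun t : ℝ => ((t, y) : ℝ × ℝ × ℝ)) ⁻¹' (L ⁻¹' K)
              from ht)]
        · rw [indicator_of_notMem (fun h : ((t, y) : ℝ × ℝ × ℝ) ∈ (L ⁻¹' K) ∩ Prod.snd ⁻¹' W =>
            ht h.1), indicator_of_notMem (fun h : t ∈ (fun t : ℝ => ((t, y) : ℝ × ℝ × ℝ)) ⁻¹'
              (L ⁻¹' K) => ht h)]
      rw [e, lintegral_indicator hfm]
      exact M2_fibre hKc hgc hg0 u a b L hL hkey y
    · rw [indicator_of_notMem hy]
      have e : (fun t : ℝ => ((L ⁻¹' K) ∩ (Prod.snd ⁻¹' W : Set (ℝ × ℝ × ℝ))).indicator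
          (fun z : ℝ × ℝ × ℝ => ENNReal.ofReal (g (L z))) (t, y)) = fun _ => 0 := by
        funext t
        exact indicator_of_notMem (fun h : ((t, y) : ℝ × ℝ × ℝ) ∈ (L ⁻¹' K) ∩ Prod.snd ⁻¹' W =>
          hy h.2) _
      rw [e]
      simp
  calc ∫⁻ x in K ∩ planeCoords a b ⁻¹' W, ENNReal.ofReal (g x)
      = ∫⁻ z in (L ⁻¹' K) ∩ Prod.snd ⁻¹' W, ENNReal.ofReal (g (L z)) := by
        conv_lhs => rw [hmeas]
        rw [setLIntegral_map hAm hf hLm, hpre]
    _ = ∫⁻ z, ((L ⁻¹' K) ∩ (Prod.snd ⁻¹' W : Set (ℝ × ℝ × ℝ))).indicator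
          (fun z : ℝ × ℝ × ℝ => ENNReal.ofReal (g (L z))) z := (lintegral_indicator hAm' _).symm
    _ = ∫⁻ y : ℝ × ℝ, ∫⁻ t : ℝ, ((L ⁻¹' K) ∩ (Prod.snd ⁻¹' W : Set (ℝ × ℝ × ℝ))).indicator
          (fun z : ℝ × ℝ × ℝ => ENNReal.ofReal (g (L z))) (t, y) := by
        rw [Measure.volume_eq_prod, lintegral_prod_symm _ (hF.indicator hAm').aemeasurable]
    _ ≤ ∫⁻ y : ℝ × ℝ, W.indicator (fun _ => ENNReal.ofReal c) y := lintegral_mono hinner
    _ = ENNReal.ofReal c * volume W := lintegral_indicator_const hW _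

/-- The dual-measure lemma, with the projection formula for `Ahat` (module M1a) as a
hypothesis. -/
theorem M2_good_cover_of
    (hM1a : ∀ (K : Set E3), IsCompact K → Convex ℝ K → K.Nonempty → ∀ (a b : E3),
      OrthoPair a b → ∀ w : E3, inner ℝ w a = 0 → inner ℝ w b = 0 →
      Ahat K w = ‖w‖ * (volume (planeCoords a b '' K)).toReal)
    {K : Set E3} (hK : Body K) {g : E3 → ℝ} {Θ : ℝ} (hΘ : 0 < Θ)
    (hG : Good K g Θ) {m : ℕ} (a b : Fin m → E3) (hab : ∀ i, OrthoPair (a i) (b i))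
    (S : Fin m → Set (ℝ × ℝ)) (hcov : K ⊆ ⋃ i, planeCoords (a i) (b i) ⁻¹' S i) :
    ENNReal.ofReal (1 / Θ) ≤ ∑ i, volume (S i) / volume (planeCoords (a i) (b i) '' K) := by
  obtain ⟨hgc, hg12, hgood⟩ := hG
  have hKc := hK.compact
  have hKv := hK.conv
  have hKn : K.Nonempty := hK.int.mono interior_subset
  have hg0 : ∀ x, 0 ≤ g x := fun x => by linarith [(hg12 x).1]
  have hint : IntegrableOn g K volume := hgc.continuousOn.integrableOn_compact hKc
  have hJ : ENNReal.ofReal (∫ x in K, g x) = ∫⁻ x in K, ENNReal.ofReal (g x) :=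
    ofReal_integral_eq_lintegral_ofReal hint (ae_of_all _ hg0)
  generalize (∫ x in K, g x) = I at hgood hJ
  have hvolK : 0 < volume K :=
    lt_of_lt_of_le (isOpen_interior.measure_pos volume hK.int) (measure_mono interior_subset)
  have hJpos : 0 < ENNReal.ofReal I := by
    rw [hJ]
    calc 0 < volume K := hvolK
      _ = ∫⁻ _x in K, 1 := by simp
      _ ≤ ∫⁻ x in K, ENNReal.ofReal (g x) :=
          lintegral_mono fun x => ENNReal.one_le_ofReal.2 (hg12 x).1
  -- the capture bound for every cylinder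
  have hcap : ∀ i, ∫⁻ x in K ∩ planeCoords (a i) (b i) ⁻¹' (toMeasurable volume (S i)),
        ENNReal.ofReal (g x)
      ≤ ENNReal.ofReal (Θ * I) * (volume (S i) / volume (planeCoords (a i) (b i) '' K)) := by
    intro i
    obtain ⟨u, L, hu1, hua, hub, hL, hpl, hvol⟩ := M0_chart (a i) (b i) (hab i)
    have hP0 : 0 < volume (planeCoords (a i) (b i) '' K) :=
      volume_planeCoords_pos K hK.int (a i) (b i) (hab i)
    have hPtop : volume (planeCoords (a i) (b i) '' K) ≠ ⊤ :=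
      (hKc.image (M2_continuous_planeCoords (a i) (b i))).measure_lt_top.ne
    have hvPpos : 0 < (volume (planeCoords (a i) (b i) '' K)).toReal :=
      ENNReal.toReal_pos hP0.ne' hPtop
    have hvPeq : ENNReal.ofReal (volume (planeCoords (a i) (b i) '' K)).toReal
        = volume (planeCoords (a i) (b i) '' K) := ENNReal.ofReal_toReal hPtop
    obtain ⟨vP, hvPdef⟩ : ∃ vP : ℝ, (volume (planeCoords (a i) (b i) '' K)).toReal = vP :=
      ⟨_, rfl⟩
    rw [hvPdef] at hvPpos hvPeq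
    have hkey : ∀ p ∈ K, ∀ q ∈ K, ∀ t : ℝ, 0 ≤ t → q - p = t • u →
        t * avgSeg g p q ≤ Θ * I / vP := by
      intro p hp q hq t ht hqp
      have h1 := hgood p hp q hq
      have h2 := hM1a K hKc hKv hKn (a i) (b i) (hab i) (q - p)
        (by rw [hqp, inner_smul_left, hua]; simp) (by rw [hqp, inner_smul_left, hub]; simp)
      have h3 : ‖q - p‖ = t := by
        rw [hqp, norm_smul, hu1, mul_one, Real.norm_eq_abs, abs_of_nonneg ht]
      rw [h2, h3, hvPdef] at h1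
      rw [le_div_iff₀ hvPpos]
      calc t * avgSeg g p q * vP = avgSeg g p q * (t * vP) := by ring
        _ ≤ Θ * I := h1
    have hcl := M2_claim hKc hgc hg0 u (a i) (b i) L hL hpl hvol hkey
      (toMeasurable volume (S i)) (measurableSet_toMeasurable _ _)
    rw [measure_toMeasurable] at hcl
    calc ∫⁻ x in K ∩ planeCoords (a i) (b i) ⁻¹' (toMeasurable volume (S i)),
          ENNReal.ofReal (g x)
        ≤ ENNReal.ofReal (Θ * I / vP) * volume (S i) := hcl
      _ = ENNReal.ofReal (Θ * I) * (volume (S i) / volume (planeCoords (a i) (b i) '' K)) := by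
          rw [ENNReal.ofReal_div_of_pos hvPpos, hvPeq, ENNReal.div_eq_inv_mul,
            ENNReal.div_eq_inv_mul]
          ring
  -- covering
  have hcov' : K ⊆ ⋃ i, K ∩ planeCoords (a i) (b i) ⁻¹' (toMeasurable volume (S i)) := by
    intro x hx
    obtain ⟨i, hi⟩ := mem_iUnion.1 (hcov hx)
    exact mem_iUnion.2 ⟨i, hx, subset_toMeasurable volume (S i) hi⟩
  have hsum : ENNReal.ofReal I ≤ ENNReal.ofReal (Θ * I)
      * ∑ i, volume (S i) / volume (planeCoords (a i) (b i) '' K) := by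
    rw [hJ, Finset.mul_sum]
    calc ∫⁻ x in K, ENNReal.ofReal (g x)
        ≤ ∫⁻ x in ⋃ i, K ∩ planeCoords (a i) (b i) ⁻¹' (toMeasurable volume (S i)),
            ENNReal.ofReal (g x) := lintegral_mono_set hcov'
      _ ≤ ∑' i, ∫⁻ x in K ∩ planeCoords (a i) (b i) ⁻¹' (toMeasurable volume (S i)),
            ENNReal.ofReal (g x) := lintegral_iUnion_le _ _
      _ = ∑ i, ∫⁻ x in K ∩ planeCoords (a i) (b i) ⁻¹' (toMeasurable volume (S i)),
            ENNReal.ofReal (g x) := tsum_fintype _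
      _ ≤ ∑ i, ENNReal.ofReal (Θ * I)
            * (volume (S i) / volume (planeCoords (a i) (b i) '' K)) :=
          Finset.sum_le_sum fun i _ => hcap i
  -- divide by the total mass
  rw [ENNReal.ofReal_mul hΘ.le] at hsum
  have hΘ0 : ENNReal.ofReal Θ ≠ 0 := (ENNReal.ofReal_pos.2 hΘ).ne'
  have hΘtop : ENNReal.ofReal Θ ≠ ⊤ := ENNReal.ofReal_ne_top
  generalize (∑ i, volume (S i) / volume (planeCoords (a i) (b i) '' K)) = T at hsum ⊢
  have h1 : (1 : ENNReal) ≤ ENNReal.ofReal Θ * T := by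
    have h2 : ENNReal.ofReal I * 1 ≤ ENNReal.ofReal I * (ENNReal.ofReal Θ * T) := by
      rw [mul_one]
      calc ENNReal.ofReal I ≤ ENNReal.ofReal Θ * ENNReal.ofReal I * T := hsum
        _ = ENNReal.ofReal I * (ENNReal.ofReal Θ * T) := by ring
    exact (ENNReal.mul_le_mul_iff_right hJpos.ne' ENNReal.ofReal_ne_top).1 h2
  rw [one_div, ENNReal.ofReal_inv_of_pos hΘ]
  calc (ENNReal.ofReal Θ)⁻¹ = (ENNReal.ofReal Θ)⁻¹ * 1 := (mul_one _).symm
    _ ≤ (ENNReal.ofReal Θ)⁻¹ * (ENNReal.ofReal Θ * T) := by gcongr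
    _ = T := by rw [← mul_assoc, ENNReal.inv_mul_cancel hΘ0 hΘtop, one_mul]

end Vale.Agent.Lib.P243.R3
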