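import Mathlib
import Vale.Agent.Lib.P243.Defs
import Vale.Agent.Lib.P243.R3.Defs
import Vale.Agent.Lib.P243.R3.M2of
import Vale.Agent.Lib.P243.R3.helper23.SweepBackup

/-!
# P243, `r_3 > 1/3`, module M2: the dual-measure lemma

If the density `g` calibrates `K` with constant `Θ`, then every covering of `K` by
cylinders over sets `S i` in the coordinate planes `(a i, b i)` has
`∑ i, vol (S i) / vol (P_i K) ≥ 1 / Θ`.  The proof is in `M2of.lean`; here the projection
formula for `Ahat` (module M1a, `helper23/SweepBackup.lean`) is plugged in.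
-/

namespace Vale.Agent.Lib.P243.R3

open MeasureTheory Set Vale.Agent.Lib.P243
open scoped Pointwise

theorem M2_good_cover {K : Set E3} (hK : Body K) {g : E3 → ℝ} {Θ : ℝ} (hΘ : 0 < Θ)
    (hG : Good K g Θ) {m : ℕ} (a b : Fin m → E3) (hab : ∀ i, OrthoPair (a i) (b i))
    (S : Fin m → Set (ℝ × ℝ)) (hcov : K ⊆ ⋃ i, planeCoords (a i) (b i) ⁻¹' S i) :
    ENNReal.ofReal (1 / Θ) ≤ ∑ i, volume (S i) / volume (planeCoords (a i) (b i) '' K) :=
  M2_good_cover_of
    (fun _ hKc hKv _ a b hab w hwa hwb => M1a_Ahat_area_h23 hKc hKv a b hab w hwa hwb)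
    hK hΘ hG a b hab S hcov

end Vale.Agent.Lib.P243.R3
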