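import Mathlib
import Vale.Agent.Lib.P243.Defs
import Vale.Agent.Lib.P243.R3.Defs
import Vale.Agent.Lib.P243.R3.M1
import Vale.Agent.Lib.P243.R3.helper22.ModelLe
import Vale.Agent.Lib.P243.R3.helper47.ModelLt
import Vale.Agent.Lib.P243.R3.helper36.GainChord
import Vale.Agent.Lib.P243.R3.helper53.BottomTop
import Vale.Agent.Lib.P243.R3.helper5.Lateral
import Vale.Agent.Lib.P243.R3.helper95.ModelStar
import Vale.Agent.Lib.P243.R3.helper91.Transfer3

/-!
# P243, `r_3 > 1/3`: module M3 (the chord bound and its equality case), skeleton names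

`M3a_Ahat_le`: for two points `p`, `q` of a convex body `K`, `Ahat K (q - p) ≤ 3 vol K`.
`M3b_eff_star`: if equality holds and `p ≠ q`, every boundary point of `K` is joined to `p`
or to `q` by a segment inside the boundary.
-/

namespace Vale.Agent.Lib.P243.R3

open MeasureTheory Set Vale.Agent.Lib.P243
open scoped Pointwise

/-- The equality case in the model space, with no hypothesis left. -/
theorem M3_model_star {K : Set (ℝ × (ℝ × ℝ))} (hK : IsCompact K) (hc : Convex ℝ K)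
    (hint : (interior K).Nonempty) {z0 l : ℝ} {o : ℝ × ℝ} (hl : 0 < l) (h0 : (z0, o) ∈ K)
    (h1 : (z0 + l, o) ∈ K)
    (heq : ENNReal.ofReal l * volume (Prod.snd '' K) = 3 * volume K)
    {x : ℝ × (ℝ × ℝ)} (hx : x ∈ frontier K) :
    segment ℝ ((z0, o) : ℝ × (ℝ × ℝ)) x ⊆ frontier K ∨
      segment ℝ ((z0 + l, o) : ℝ × (ℝ × ℝ)) x ⊆ frontier K :=
  M3m_model_star_of
    (fun _ hK hc _ _ _ hl h0 h1 hP hgain => M3s_model_lt hK hc hl h0 h1 hP hgain)
    (fun _ hK hc _ _ _ hl h0 h1 _ hξ _ hs0 hs1 h => M3g_gain_of_chord hK hc hl h0 h1 hξ hs0 hs1 h)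
    (fun _ hK hc _ _ _ hl h0 h1 _ _ hx hbot _ hs0 hs1 hw =>
      M3b_bottom hK hc hl h0 h1 hx hbot hs0 hs1 hw)
    (fun _ hK hc _ _ _ hl h0 h1 _ _ hx htop _ hs0 hs1 hw =>
      M3b_top hK hc hl h0 h1 hx htop hs0 hs1 hw)
    (fun _ hK hc _ _ _ hl h0 h1 _ _ _ _ hx hζ1 hx1 hζ2 hx2 _ hs0 hs1 hw =>
      M3c_lateral hK hc hl h0 h1 hx hζ1 hx1 hζ2 hx2 hs0 hs1 hw)
    hK hc hint hl h0 h1 heq hx

/-- Both parts of M3 at once. -/
theorem M3_both {K : Set E3} (hK : Body K) {p q : E3} (hp : p ∈ K) (hq : q ∈ K) :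
    Ahat K (q - p) ≤ 3 * (volume K).toReal ∧
      (p ≠ q → Ahat K (q - p) = 3 * (volume K).toReal → ∀ x ∈ frontier K,
        segment ℝ p x ⊆ frontier K ∨ segment ℝ q x ⊆ frontier K) :=
  M3e_transfer M1i_triE_volume
    (fun _ hKc hKv a b hab w hwa hwb => M1a_Ahat_eq_area hKc hKv a b hab w hwa hwb)
    M1b_exists_perp_pair
    (fun _ hK hc _ _ _ hl h0 h1 => M3l_model_le hK hc hl h0 h1)
    (fun _ hK hc hint _ _ _ hl h0 h1 heq _ hx => M3_model_star hK hc hint hl h0 h1 heq hx)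
    hK hp hq

/-- M3a: the chord bound. -/
theorem M3a_Ahat_le {K : Set E3} (hK : Body K) {p q : E3} (hp : p ∈ K) (hq : q ∈ K) :
    Ahat K (q - p) ≤ 3 * (volume K).toReal :=
  (M3_both hK hp hq).1

/-- M3b: the equality case. -/
theorem M3b_eff_star {K : Set E3} (hK : Body K) {p q : E3} (hp : p ∈ K) (hq : q ∈ K)
    (hpq : p ≠ q) (heff : Ahat K (q - p) = 3 * (volume K).toReal) {x : E3}
    (hx : x ∈ frontier K) :
    segment ℝ p x ⊆ frontier K ∨ segment ℝ q x ⊆ frontier K :=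
  (M3_both hK hp hq).2 hpq heff x hx

end Vale.Agent.Lib.P243.R3
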