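import Mathlib
import Vale.Agent.Lib.P243.Defs
import Vale.Agent.Lib.P243.R3.Defs
import Vale.Agent.Lib.P243.R3.Defs4
import Vale.Agent.Lib.P243.R3.M3
import Vale.Agent.Lib.P243.R3.helper11.M4Final

/-!
# P243, `r_3 > 1/3`: module M4 (three segments meeting every efficient chord), skeleton name

`M4_exists_hitting`: for a convex body `K` there are three segments such that every chord
`[p, q]` of `K` with `Ahat K (q - p) = 3 vol K` has an endpoint on one of them.
-/

namespace Vale.Agent.Lib.P243.R3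

open MeasureTheory Set Vale.Agent.Lib.P243

/-- M4, with the endpoints of the three segments in `K`. -/
theorem M4_exists_hitting_mem {K : Set E3} (hK : Body K) :
    ∃ α β : Fin 3 → E3, (∀ j, α j ∈ K ∧ β j ∈ K) ∧
      ∀ p ∈ K, ∀ q ∈ K, p ≠ q → Ahat K (q - p) = 3 * (volume K).toReal →
        (p ∈ ⋃ j, segment ℝ (α j) (β j)) ∨ (q ∈ ⋃ j, segment ℝ (α j) (β j)) := by
  obtain ⟨α, β, hmem, h⟩ := M4e_hitting_mem hK
  exact ⟨α, β, hmem, fun p hp q hq hpq heff =>
    h p q ⟨hp, hq, hpq, fun _ hx => M3b_eff_star hK hp hq hpq heff hx⟩⟩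

/-- M4: three segments meeting every efficient chord. -/
theorem M4_exists_hitting {K : Set E3} (hK : Body K) :
    ∃ α β : Fin 3 → E3,
      ∀ p ∈ K, ∀ q ∈ K, p ≠ q → Ahat K (q - p) = 3 * (volume K).toReal →
        (p ∈ ⋃ j, segment ℝ (α j) (β j)) ∨ (q ∈ ⋃ j, segment ℝ (α j) (β j)) := by
  obtain ⟨α, β, -, h⟩ := M4_exists_hitting_mem hK
  exact ⟨α, β, h⟩

end Vale.Agent.Lib.P243.R3
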