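import Mathlib
import Vale.Agent.Lib.P243.Defs
import Vale.Agent.Lib.P243.R3.Defs

/-!
# P243, `r_3 > 1/3`, module M4 (core): a small set meeting every efficient chord

Abstract form.  Let `K` be a convex body of Euclidean 3-space and `Eff` a relation on points of
`K` such that for every pair `(p, q)` in the relation and every boundary point `x` of `K` one of
the segments `[p, x]`, `[q, x]` lies in the boundary.  Then three segments with endpoints in
`K` meet every pair of the relation: one of `p`, `q` lies on one of them.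
-/

namespace Vale.Agent.Lib.P243.R3

open Set MeasureTheory Module

/-- A supporting functional at a boundary point. -/
lemma M4h10_support {K : Set E3} (hK : Body K) {x : E3} (hx : x ∈ frontier K) :
    ∃ f : E3 →L[ℝ] ℝ, f ≠ 0 ∧ ∀ z ∈ K, f z ≤ f x := by
  have hxi : x ∉ interior K := hx.2
  obtain ⟨f, hf⟩ := geometric_hahn_banach_open_point hK.conv.interior isOpen_interior hxi
  refine ⟨f, ?_, ?_⟩
  · rintro rfl
    obtain ⟨a, ha⟩ := hK.int
    have h0 := hf a ha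
    simp at h0
  · intro z hz
    have hcl : closure (interior K) = closure K :=
      hK.conv.closure_interior_eq_closure_of_nonempty_interior hK.int
    have hz' : z ∈ closure (interior K) := by
      rw [hcl]
      exact subset_closure hz
    have hsub : interior K ⊆ {y | f y ≤ f x} := fun a ha => (hf a ha).le
    exact closure_minimal hsub (isClosed_le f.continuous continuous_const) hz'

/-- An interior point does not maximise a nonzero functional. -/
lemma M4h10_interior_lt {K : Set E3} {f : E3 →L[ℝ] ℝ} (hf : f ≠ 0) {M : ℝ}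
    (hM : ∀ z ∈ K, f z ≤ M) {c : E3} (hc : c ∈ interior K) : f c < M := by
  have hopen : IsOpen (f '' interior K) := f.isOpenMap_of_ne_zero hf _ isOpen_interior
  have hmem : f c ∈ f '' interior K := ⟨c, hc, rfl⟩
  obtain ⟨ε, hε, hball⟩ := Metric.isOpen_iff.1 hopen (f c) hmem
  have h1 : f c + ε / 2 ∈ Metric.ball (f c) ε := by
    rw [Metric.mem_ball, Real.dist_eq]
    have : f c + ε / 2 - f c = ε / 2 := by ring
    rw [this, abs_of_pos (by positivity)]
    linarith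
  obtain ⟨y, hy, hy'⟩ := hball h1
  have := hM y (interior_subset hy)
  linarith

/-- A maximiser of a nonzero functional is a boundary point. -/
lemma M4h10_mem_frontier {K : Set E3} {f : E3 →L[ℝ] ℝ} (hf : f ≠ 0) {M : ℝ}
    (hM : ∀ z ∈ K, f z ≤ M) {x : E3} (hx : x ∈ K) (hfx : f x = M) : x ∈ frontier K := by
  refine ⟨subset_closure hx, fun hi => ?_⟩
  have := M4h10_interior_lt hf hM hi
  linarith

/-- If the midpoint of two points of `K` is a boundary point, a supporting plane at the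
midpoint contains both points. -/
lemma M4h10_sup {K : Set E3} (hK : Body K) {a b : E3} (ha : a ∈ K) (hb : b ∈ K)
    (hm : (1 / 2 : ℝ) • a + (1 / 2 : ℝ) • b ∈ frontier K) :
    ∃ f : E3 →L[ℝ] ℝ, f ≠ 0 ∧ (∀ z ∈ K, f z ≤ f a) ∧ f b = f a := by
  obtain ⟨f, hf0, hf⟩ := M4h10_support hK hm
  have e : f ((1 / 2 : ℝ) • a + (1 / 2 : ℝ) • b) = (1 / 2) * f a + (1 / 2) * f b := by
    simp
  rw [e] at hf
  have h1 := hf a ha
  have h2 := hf b hb
  have hab : f b = f a := by linarith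
  refine ⟨f, hf0, fun z hz => ?_, hab⟩
  have := hf z hz
  linarith

/-- Two nonzero functionals vanishing on two independent vectors have the same kernel. -/
lemma M4h10_ker {f g : E3 →L[ℝ] ℝ} (hf : f ≠ 0) (hg : g ≠ 0) {v₁ v₂ : E3}
    (hv : LinearIndependent ℝ ![v₁, v₂]) (hf1 : f v₁ = 0) (hf2 : f v₂ = 0) (hg1 : g v₁ = 0)
    (hg2 : g v₂ = 0) {w : E3} (hw : f w = 0) : g w = 0 := by
  have key : ∀ h : E3 →L[ℝ] ℝ, h ≠ 0 → h v₁ = 0 → h v₂ = 0 →
      Submodule.span ℝ (Set.range ![v₁, v₂]) = LinearMap.ker (h : E3 →ₗ[ℝ] ℝ) := by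
    intro h hh h1 h2
    have hne : (h : E3 →ₗ[ℝ] ℝ) ≠ 0 := by
      intro h0
      apply hh
      ext x
      have := congrArg (fun l : E3 →ₗ[ℝ] ℝ => l x) h0
      simpa using this
    have hle : Submodule.span ℝ (Set.range ![v₁, v₂]) ≤ LinearMap.ker (h : E3 →ₗ[ℝ] ℝ) := by
      rw [Submodule.span_le]
      rintro _ ⟨i, rfl⟩
      fin_cases i
      · simpa using h1
      · simpa using h2
    refine Submodule.eq_of_le_of_finrank_eq hle ?_
    have hk := Module.Dual.finrank_ker_add_one_of_ne_zero (K := ℝ) (V₁ := E3)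
      (f := (h : E3 →ₗ[ℝ] ℝ)) hne
    have h3 : finrank ℝ E3 = 3 := finrank_euclideanSpace_fin
    rw [finrank_span_eq_card hv]
    simp only [Fintype.card_fin]
    omega
  have hwf : w ∈ LinearMap.ker (f : E3 →ₗ[ℝ] ℝ) := by
    rw [LinearMap.mem_ker]
    simpa using hw
  rw [← key f hf hf1 hf2, key g hg hg1 hg2, LinearMap.mem_ker] at hwf
  simpa using hwf

/-- A line through an interior point meets the boundary. -/
lemma M4h10_exit {K : Set E3} (hK : Body K) {c : E3} (hc : c ∈ K) {d : E3} (hd : d ≠ 0) :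
    ∃ t : ℝ, c + t • d ∈ frontier K := by
  set T : Set ℝ := (fun t : ℝ => c + t • d) ⁻¹' K with hT
  have hTcl : IsClosed T := hK.compact.isClosed.preimage (by fun_prop)
  have hT0 : (0 : ℝ) ∈ T := by
    show c + (0 : ℝ) • d ∈ K
    simpa using hc
  have hdpos : 0 < inner ℝ d d := real_inner_self_pos.2 hd
  obtain ⟨y, hy, hymax⟩ := hK.compact.exists_isMaxOn ⟨c, hc⟩
    (show ContinuousOn (fun z : E3 => inner ℝ d z) K from (by fun_prop : Continuous
      (fun z : E3 => inner ℝ d z)).continuousOn)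
  have hbdd : BddAbove T := by
    refine ⟨(inner ℝ d y - inner ℝ d c) / inner ℝ d d, fun t ht => ?_⟩
    have h1 : inner ℝ d (c + t • d) ≤ inner ℝ d y := isMaxOn_iff.1 hymax _ ht
    rw [inner_add_right, inner_smul_right] at h1
    rw [le_div_iff₀ hdpos]
    linarith
  have hsup : sSup T ∈ T := hTcl.csSup_mem ⟨0, hT0⟩ hbdd
  refine ⟨sSup T, subset_closure hsup, fun hi => ?_⟩
  obtain ⟨ε, hε, hball⟩ := Metric.isOpen_iff.1 isOpen_interior _ hi
  have hnd : 0 < ‖d‖ := norm_pos_iff.2 hd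
  have hmem : c + (sSup T + ε / (2 * ‖d‖)) • d ∈ Metric.ball (c + sSup T • d) ε := by
    rw [Metric.mem_ball, dist_eq_norm]
    have e : c + (sSup T + ε / (2 * ‖d‖)) • d - (c + sSup T • d) = (ε / (2 * ‖d‖)) • d := by
      module
    rw [e, norm_smul, Real.norm_of_nonneg (by positivity)]
    have : ε / (2 * ‖d‖) * ‖d‖ = ε / 2 := by field_simp
    rw [this]
    linarith
  have hin : sSup T + ε / (2 * ‖d‖) ∈ T := by
    show c + (sSup T + ε / (2 * ‖d‖)) • d ∈ K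
    exact interior_subset (hball hmem)
  have hle := le_csSup hbdd hin
  have : 0 < ε / (2 * ‖d‖) := by positivity
  linarith

/-- `(g, M)` is a facet plane of `K`: the plane `g = M` supports `K` and contains three
affinely independent points of `K`. -/
def M4h10_Facet (K : Set E3) (g : E3 →L[ℝ] ℝ) (M : ℝ) : Prop :=
  g ≠ 0 ∧ (∀ z ∈ K, g z ≤ M) ∧ ∃ a b c : E3, a ∈ K ∧ b ∈ K ∧ c ∈ K ∧
    g a = M ∧ g b = M ∧ g c = M ∧ LinearIndependent ℝ ![b - a, c - a]

lemma M4h10_coe_ne_zero {g : E3 →L[ℝ] ℝ} (hg : g ≠ 0) : (g : E3 →ₗ[ℝ] ℝ) ≠ 0 := by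
  intro h0
  apply hg
  ext x
  have := congrArg (fun l : E3 →ₗ[ℝ] ℝ => l x) h0
  simpa using this

/-- Every facet plane contains an endpoint of every pair with the star property. -/
lemma M4h10_facet_hit {K : Set E3} (hK : Body K) {g : E3 →L[ℝ] ℝ} {M : ℝ} (hF : M4h10_Facet K g M)
    {p q : E3} (hp : p ∈ K) (hq : q ∈ K)
    (hstar : ∀ x ∈ frontier K, segment ℝ p x ⊆ frontier K ∨ segment ℝ q x ⊆ frontier K) :
    g p = M ∨ g q = M := by
  obtain ⟨hg0, hgM, a, b, c, ha, hb, hc, hga, hgb, hgc, hli⟩ := hF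
  set x : E3 := (1 / 3 : ℝ) • a + (1 / 3 : ℝ) • b + (1 / 3 : ℝ) • c with hx
  have hxK : x ∈ K := by
    have hbc : (1 / 2 : ℝ) • b + (1 / 2 : ℝ) • c ∈ K :=
      hK.conv hb hc (by norm_num) (by norm_num) (by norm_num)
    have e : x = (1 / 3 : ℝ) • a + (2 / 3 : ℝ) • ((1 / 2 : ℝ) • b + (1 / 2 : ℝ) • c) := by
      rw [hx]
      module
    rw [e]
    exact hK.conv ha hbc (by norm_num) (by norm_num) (by norm_num)
  have hgx : g x = M := by
    simp only [hx, map_add, map_smul, smul_eq_mul, hga, hgb, hgc]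
    ring
  have hxf : x ∈ frontier K := M4h10_mem_frontier hg0 hgM hxK hgx
  have key : ∀ r ∈ K, segment ℝ r x ⊆ frontier K → g r = M := by
    intro r hr hseg
    have hmid : (1 / 2 : ℝ) • r + (1 / 2 : ℝ) • x ∈ frontier K :=
      hseg ⟨1 / 2, 1 / 2, by norm_num, by norm_num, by norm_num, rfl⟩
    obtain ⟨f, hf0, hfmax, hfx⟩ := M4h10_sup hK hr hxK hmid
    have e : f x = (1 / 3) * f a + (1 / 3) * f b + (1 / 3) * f c := by
      simp only [hx, map_add, map_smul, smul_eq_mul]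
    have h1 := hfmax a ha
    have h2 := hfmax b hb
    have h3 := hfmax c hc
    have hfa : f a = f r := by linarith
    have hfb : f b = f r := by linarith
    have hfc : f c = f r := by linarith
    have hgr := M4h10_ker hf0 hg0 hli (by rw [map_sub, hfa, hfb, sub_self])
      (by rw [map_sub, hfa, hfc, sub_self]) (by rw [map_sub, hga, hgb, sub_self])
      (by rw [map_sub, hga, hgc, sub_self]) (w := r - a) (by rw [map_sub, hfa, sub_self])
    rw [map_sub, sub_eq_zero] at hgr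
    rw [hgr, hga]
  rcases hstar x hxf with h | h
  · exact Or.inl (key p hp h)
  · exact Or.inr (key q hq h)

/-- The part of `K` on two distinct planes lies on a segment with endpoints in `K`. -/
lemma M4h10_two_planes {K : Set E3} (hK : Body K) {g g' : E3 →L[ℝ] ℝ} {M M' : ℝ}
    (hg : g ≠ 0) (hg' : g' ≠ 0) (hne : {y : E3 | g y = M} ≠ {y : E3 | g' y = M'}) :
    ∃ α β : E3, α ∈ K ∧ β ∈ K ∧ ∀ y ∈ K, g y = M → g' y = M' → y ∈ segment ℝ α β := by
  set S : Set E3 := K ∩ ({y | g y = M} ∩ {y | g' y = M'}) with hS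
  by_cases hSne : S.Nonempty
  swap
  · obtain ⟨c, hc⟩ := hK.int
    refine ⟨c, c, interior_subset hc, interior_subset hc, fun y hy h1 h2 => ?_⟩
    exact absurd ⟨y, hy, h1, h2⟩ hSne
  obtain ⟨y0, hy0K, hy01, hy02⟩ := hSne
  have hy01' : g y0 = M := hy01
  have hy02' : g' y0 = M' := hy02
  have hScomp : IsCompact S := hK.compact.inter_right
    ((isClosed_eq g.continuous continuous_const).inter
      (isClosed_eq g'.continuous continuous_const))
  set W : Submodule ℝ E3 :=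
    LinearMap.ker (g : E3 →ₗ[ℝ] ℝ) ⊓ LinearMap.ker (g' : E3 →ₗ[ℝ] ℝ) with hW
  have hWrank : finrank ℝ W ≤ 1 := by
    by_contra hcon
    rw [not_le] at hcon
    have hk := Module.Dual.finrank_ker_add_one_of_ne_zero (K := ℝ) (V₁ := E3)
      (f := (g : E3 →ₗ[ℝ] ℝ)) (M4h10_coe_ne_zero hg)
    have hk' := Module.Dual.finrank_ker_add_one_of_ne_zero (K := ℝ) (V₁ := E3)
      (f := (g' : E3 →ₗ[ℝ] ℝ)) (M4h10_coe_ne_zero hg')
    have h3 : finrank ℝ E3 = 3 := finrank_euclideanSpace_fin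
    have e1 : W = LinearMap.ker (g : E3 →ₗ[ℝ] ℝ) :=
      Submodule.eq_of_le_of_finrank_le inf_le_left (by omega)
    have e2 : W = LinearMap.ker (g' : E3 →ₗ[ℝ] ℝ) :=
      Submodule.eq_of_le_of_finrank_le inf_le_right (by omega)
    apply hne
    ext y
    have hiff : y - y0 ∈ LinearMap.ker (g : E3 →ₗ[ℝ] ℝ)
        ↔ y - y0 ∈ LinearMap.ker (g' : E3 →ₗ[ℝ] ℝ) := by rw [← e1, ← e2]
    simp only [LinearMap.mem_ker, ContinuousLinearMap.coe_coe, map_sub, sub_eq_zero] at hiff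
    rw [hy01', hy02'] at hiff
    exact hiff
  obtain ⟨⟨d, hdW⟩, hd⟩ := finrank_le_one_iff.1 hWrank
  have hline : ∀ y ∈ S, ∃ c : ℝ, y = y0 + c • d := by
    intro y hy
    have hy1 : g y = M := hy.2.1
    have hy2 : g' y = M' := hy.2.2
    have hyW : y - y0 ∈ W := by
      refine ⟨?_, ?_⟩
      · rw [SetLike.mem_coe, LinearMap.mem_ker, ContinuousLinearMap.coe_coe, map_sub, hy1, hy01',
          sub_self]
      · rw [SetLike.mem_coe, LinearMap.mem_ker, ContinuousLinearMap.coe_coe, map_sub, hy2, hy02',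
          sub_self]
    obtain ⟨c, hc⟩ := hd ⟨y - y0, hyW⟩
    refine ⟨c, ?_⟩
    have e : c • d = y - y0 := congrArg Subtype.val hc
    rw [e]
    abel
  have hcont : ContinuousOn (fun z : E3 => inner ℝ d z) S :=
    (by fun_prop : Continuous (fun z : E3 => inner ℝ d z)).continuousOn
  obtain ⟨α, hα, hαmin⟩ := hScomp.exists_isMinOn ⟨y0, hy0K, hy01, hy02⟩ hcont
  obtain ⟨β, hβ, hβmax⟩ := hScomp.exists_isMaxOn ⟨y0, hy0K, hy01, hy02⟩ hcont
  refine ⟨α, β, hα.1, hβ.1, fun y hy h1 h2 => ?_⟩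
  have hyS : y ∈ S := ⟨hy, h1, h2⟩
  obtain ⟨cy, hcy⟩ := hline y hyS
  obtain ⟨ca, hca⟩ := hline α hα
  obtain ⟨cb, hcb⟩ := hline β hβ
  by_cases hd0 : d = 0
  · have e : y = α := by
      rw [hcy, hca, hd0]
      simp
    rw [e]
    exact left_mem_segment ℝ α β
  have hdpos : 0 < inner ℝ d d := real_inner_self_pos.2 hd0
  have h1 : ca ≤ cy := by
    have hmin : inner ℝ d α ≤ inner ℝ d y := isMinOn_iff.1 hαmin _ hyS
    rw [hca, hcy, inner_add_right, inner_add_right, inner_smul_right, inner_smul_right] at hmin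
    by_contra hlt
    rw [not_le] at hlt
    nlinarith
  have h2 : cy ≤ cb := by
    have hmax : inner ℝ d y ≤ inner ℝ d β := isMaxOn_iff.1 hβmax _ hyS
    rw [hcb, hcy, inner_add_right, inner_add_right, inner_smul_right, inner_smul_right] at hmax
    by_contra hlt
    rw [not_le] at hlt
    nlinarith
  by_cases hab : ca = cb
  · have e : y = α := by
      have : cy = ca := le_antisymm (hab ▸ h2) h1
      rw [hcy, hca, this]
    rw [e]
    exact left_mem_segment ℝ α β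
  have hlt : ca < cb := lt_of_le_of_ne (h1.trans h2) hab
  have hne' : cb - ca ≠ 0 := by linarith
  have hs : (cb - cy) / (cb - ca) + (cy - ca) / (cb - ca) = 1 := by
    field_simp
    ring
  have ht : (cb - cy) / (cb - ca) * ca + (cy - ca) / (cb - ca) * cb = cy := by
    field_simp
    ring
  refine ⟨(cb - cy) / (cb - ca), (cy - ca) / (cb - ca), div_nonneg (by linarith) (by linarith),
    div_nonneg (by linarith) (by linarith), hs, ?_⟩
  rw [hca, hcb, hcy]
  linear_combination (norm := module) hs • y0 + ht • d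

/-- Two pairs with the star property and no common endpoint: every boundary point lies on a
facet plane or on a line through an endpoint of each pair. -/
lemma M4h10_frontier_cases {K : Set E3} (hK : Body K) {p₁ q₁ p₂ q₂ : E3}
    (hp₁ : p₁ ∈ K) (hq₁ : q₁ ∈ K) (hp₂ : p₂ ∈ K) (hq₂ : q₂ ∈ K)
    (h11 : p₁ ≠ p₂) (h12 : p₁ ≠ q₂) (h21 : q₁ ≠ p₂) (h22 : q₁ ≠ q₂)
    (hs₁ : ∀ x ∈ frontier K, segment ℝ p₁ x ⊆ frontier K ∨ segment ℝ q₁ x ⊆ frontier K)
    (hs₂ : ∀ x ∈ frontier K, segment ℝ p₂ x ⊆ frontier K ∨ segment ℝ q₂ x ⊆ frontier K)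
    {x : E3} (hx : x ∈ frontier K) :
    (∃ g M, M4h10_Facet K g M ∧ g x = M) ∨
      ∃ (a₁ a₂ : E3) (s : ℝ), (a₁ = p₁ ∨ a₁ = q₁) ∧ (a₂ = p₂ ∨ a₂ = q₂) ∧
        x = a₁ + s • (a₂ - a₁) := by
  have hKcl : frontier K ⊆ K := hK.compact.isClosed.frontier_subset
  have hxK : x ∈ K := hKcl hx
  have core : ∀ a₁ ∈ K, ∀ a₂ ∈ K, a₁ ≠ a₂ → segment ℝ a₁ x ⊆ frontier K →
      segment ℝ a₂ ((1 / 2 : ℝ) • a₁ + (1 / 2 : ℝ) • x) ⊆ frontier K →
      (∃ g M, M4h10_Facet K g M ∧ g x = M) ∨ ∃ s : ℝ, x = a₁ + s • (a₂ - a₁) := by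
    intro a₁ ha₁ a₂ ha₂ hne h1 h2
    set x' : E3 := (1 / 2 : ℝ) • a₁ + (1 / 2 : ℝ) • x with hx'
    have hx'f : x' ∈ frontier K := h1 ⟨1 / 2, 1 / 2, by norm_num, by norm_num, by norm_num, rfl⟩
    have hx'K : x' ∈ K := hKcl hx'f
    have hmid : (1 / 2 : ℝ) • a₂ + (1 / 2 : ℝ) • x' ∈ frontier K :=
      h2 ⟨1 / 2, 1 / 2, by norm_num, by norm_num, by norm_num, rfl⟩
    obtain ⟨f, hf0, hfmax, hfx'⟩ := M4h10_sup hK ha₂ hx'K hmid
    have e : f x' = (1 / 2) * f a₁ + (1 / 2) * f x := by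
      simp only [hx', map_add, map_smul, smul_eq_mul]
    have h3 := hfmax a₁ ha₁
    have h4 := hfmax x hxK
    have hfa₁ : f a₁ = f a₂ := by linarith
    have hfx : f x = f a₂ := by linarith
    by_cases hli : LinearIndependent ℝ ![x - a₁, a₂ - a₁]
    · left
      exact ⟨f, f a₂, ⟨hf0, hfmax, a₁, x, a₂, ha₁, hxK, ha₂, hfa₁, hfx, rfl, hli⟩, hfx⟩
    · right
      rw [LinearIndependent.pair_iff] at hli
      simp only [not_forall] at hli
      obtain ⟨s, t, hst, hnz⟩ := hli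
      have hs : s ≠ 0 := by
        intro hs0
        rw [hs0, zero_smul, zero_add] at hst
        rcases smul_eq_zero.1 hst with h | h
        · exact hnz ⟨hs0, h⟩
        · exact hne (sub_eq_zero.1 h).symm
      refine ⟨-t / s, ?_⟩
      have h5 : s • (x - a₁) = (-t) • (a₂ - a₁) := by
        rw [neg_smul]
        exact eq_neg_of_add_eq_zero_left hst
      have h6 : x - a₁ = (-t / s) • (a₂ - a₁) := by
        calc x - a₁ = s⁻¹ • (s • (x - a₁)) := by rw [smul_smul, inv_mul_cancel₀ hs, one_smul]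
          _ = s⁻¹ • ((-t) • (a₂ - a₁)) := by rw [h5]
          _ = (-t / s) • (a₂ - a₁) := by
              rw [smul_smul]
              congr 1
              field_simp
      rw [← h6]
      abel
  rcases hs₁ x hx with h1 | h1
  · rcases hs₂ _ (h1 ⟨1 / 2, 1 / 2, by norm_num, by norm_num, by norm_num, rfl⟩) with h2 | h2
    · rcases core p₁ hp₁ p₂ hp₂ h11 h1 h2 with h | ⟨s, hs⟩
      · exact Or.inl h
      · exact Or.inr ⟨p₁, p₂, s, Or.inl rfl, Or.inl rfl, hs⟩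
    · rcases core p₁ hp₁ q₂ hq₂ h12 h1 h2 with h | ⟨s, hs⟩
      · exact Or.inl h
      · exact Or.inr ⟨p₁, q₂, s, Or.inl rfl, Or.inr rfl, hs⟩
  · rcases hs₂ _ (h1 ⟨1 / 2, 1 / 2, by norm_num, by norm_num, by norm_num, rfl⟩) with h2 | h2
    · rcases core q₁ hq₁ p₂ hp₂ h21 h1 h2 with h | ⟨s, hs⟩
      · exact Or.inl h
      · exact Or.inr ⟨q₁, p₂, s, Or.inr rfl, Or.inl rfl, hs⟩
    · rcases core q₁ hq₁ q₂ hq₂ h22 h1 h2 with h | ⟨s, hs⟩
      · exact Or.inl h
      · exact Or.inr ⟨q₁, q₂, s, Or.inr rfl, Or.inr rfl, hs⟩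

/-- `K` has three facets in pairwise distinct planes. -/
def M4h10_ThreeFacets (K : Set E3) : Prop :=
  ∃ (g₁ : E3 →L[ℝ] ℝ) (M₁ : ℝ) (g₂ : E3 →L[ℝ] ℝ) (M₂ : ℝ) (g₃ : E3 →L[ℝ] ℝ) (M₃ : ℝ),
    M4h10_Facet K g₁ M₁ ∧ M4h10_Facet K g₂ M₂ ∧ M4h10_Facet K g₃ M₃ ∧
    {y : E3 | g₁ y = M₁} ≠ {y : E3 | g₂ y = M₂} ∧ {y : E3 | g₁ y = M₁} ≠ {y : E3 | g₃ y = M₃} ∧
    {y : E3 | g₂ y = M₂} ≠ {y : E3 | g₃ y = M₃}

/-- Without three facets in distinct planes, all facet planes are among two planes that miss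
the interior. -/
lemma M4h10_two_facet_planes {K : Set E3} (hnot : ¬ M4h10_ThreeFacets K) :
    ∃ (g₁ : E3 →L[ℝ] ℝ) (M₁ : ℝ) (g₂ : E3 →L[ℝ] ℝ) (M₂ : ℝ),
      (∀ c ∈ interior K, g₁ c < M₁) ∧ (∀ c ∈ interior K, g₂ c < M₂) ∧
      ∀ g M, M4h10_Facet K g M →
        ({y : E3 | g y = M} = {y : E3 | g₁ y = M₁} ∨ {y : E3 | g y = M} = {y : E3 | g₂ y = M₂}) := by
  by_cases h0 : ∃ g M, M4h10_Facet K g M
  · obtain ⟨g₁, M₁, hF₁⟩ := h0
    by_cases h1 : ∃ g M, M4h10_Facet K g M ∧ {y : E3 | g y = M} ≠ {y : E3 | g₁ y = M₁}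
    · obtain ⟨g₂, M₂, hF₂, hne⟩ := h1
      refine ⟨g₁, M₁, g₂, M₂, fun c hc => M4h10_interior_lt hF₁.1 hF₁.2.1 hc,
        fun c hc => M4h10_interior_lt hF₂.1 hF₂.2.1 hc, fun g M hF => ?_⟩
      by_contra hcon
      rw [not_or] at hcon
      exact hnot ⟨g₁, M₁, g₂, M₂, g, M, hF₁, hF₂, hF, hne.symm, Ne.symm hcon.1, Ne.symm hcon.2⟩
    · refine ⟨g₁, M₁, g₁, M₁, fun c hc => M4h10_interior_lt hF₁.1 hF₁.2.1 hc,
        fun c hc => M4h10_interior_lt hF₁.1 hF₁.2.1 hc, fun g M hF => Or.inl ?_⟩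
      by_contra hcon
      exact h1 ⟨g, M, hF, hcon⟩
  · refine ⟨0, 1, 0, 1, fun c _ => by simp, fun c _ => by simp,
      fun g M hF => absurd ⟨g, M, hF⟩ h0⟩

/-- Without three facets in distinct planes, two pairs with the star property share an
endpoint. -/
lemma M4h10_share {K : Set E3} (hK : Body K) (hnot : ¬ M4h10_ThreeFacets K) {p₁ q₁ p₂ q₂ : E3}
    (hp₁ : p₁ ∈ K) (hq₁ : q₁ ∈ K) (hp₂ : p₂ ∈ K) (hq₂ : q₂ ∈ K)
    (hs₁ : ∀ x ∈ frontier K, segment ℝ p₁ x ⊆ frontier K ∨ segment ℝ q₁ x ⊆ frontier K)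
    (hs₂ : ∀ x ∈ frontier K, segment ℝ p₂ x ⊆ frontier K ∨ segment ℝ q₂ x ⊆ frontier K) :
    p₁ = p₂ ∨ p₁ = q₂ ∨ q₁ = p₂ ∨ q₁ = q₂ := by
  by_contra hcon
  rw [not_or, not_or, not_or] at hcon
  obtain ⟨h11, h12, h21, h22⟩ := hcon
  obtain ⟨g₁, M₁, g₂, M₂, hi₁, hi₂, hall⟩ := M4h10_two_facet_planes hnot
  obtain ⟨d, hd0, hd1, hd2⟩ : ∃ d : E3, d ≠ 0 ∧ g₁ d = 0 ∧ g₂ d = 0 := by
    have hker : LinearMap.ker ((g₁ : E3 →ₗ[ℝ] ℝ).prod (g₂ : E3 →ₗ[ℝ] ℝ)) ≠ ⊥ := by
      refine LinearMap.ker_ne_bot_of_finrank_lt ?_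
      rw [finrank_euclideanSpace_fin, Module.finrank_prod, Module.finrank_self]
      norm_num
    obtain ⟨d, hd, hd0⟩ := (Submodule.ne_bot_iff _).1 hker
    rw [LinearMap.mem_ker] at hd
    have hd1 : ((g₁ : E3 →ₗ[ℝ] ℝ) d, (g₂ : E3 →ₗ[ℝ] ℝ) d) = ((0 : ℝ), (0 : ℝ)) := hd
    rw [Prod.mk.injEq] at hd1
    exact ⟨d, hd0, hd1.1, hd1.2⟩
  set A : E3 → E3 → Set E3 := fun a₁ a₂ =>
    (AffineSubspace.mk' a₁ (Submodule.span ℝ (Set.range ![a₂ - a₁, d])) : Set E3) with hA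
  have hAnull : ∀ a₁ a₂ : E3, volume (A a₁ a₂) = 0 := by
    intro a₁ a₂
    refine Measure.addHaar_affineSubspace volume _ ?_
    intro htop
    have hdir := congrArg AffineSubspace.direction htop
    rw [AffineSubspace.direction_mk', AffineSubspace.direction_top] at hdir
    have h1 : finrank ℝ (Submodule.span ℝ (Set.range ![a₂ - a₁, d])) ≤ 2 := by
      have := finrank_range_le_card (R := ℝ) ![a₂ - a₁, d]
      simpa [Set.finrank] using this
    rw [hdir, finrank_top, finrank_euclideanSpace_fin] at h1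
    norm_num at h1
  have hcover : interior K ⊆ A p₁ p₂ ∪ A p₁ q₂ ∪ A q₁ p₂ ∪ A q₁ q₂ := by
    intro c hc
    obtain ⟨t, ht⟩ := M4h10_exit hK (interior_subset hc) hd0
    rcases M4h10_frontier_cases hK hp₁ hq₁ hp₂ hq₂ h11 h12 h21 h22 hs₁ hs₂ ht with
      ⟨g, M, hF, hgx⟩ | ⟨a₁, a₂, s, ha₁, ha₂, hx⟩
    · exfalso
      rcases hall g M hF with h | h
      · have hmem : c + t • d ∈ {y : E3 | g₁ y = M₁} := by
          rw [← h]
          exact hgx
        have h1 : g₁ (c + t • d) = M₁ := hmem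
        rw [map_add, map_smul, hd1, smul_zero, add_zero] at h1
        exact absurd h1 (hi₁ c hc).ne
      · have hmem : c + t • d ∈ {y : E3 | g₂ y = M₂} := by
          rw [← h]
          exact hgx
        have h1 : g₂ (c + t • d) = M₂ := hmem
        rw [map_add, map_smul, hd2, smul_zero, add_zero] at h1
        exact absurd h1 (hi₂ c hc).ne
    · have hmem : c ∈ A a₁ a₂ := by
        show c ∈ AffineSubspace.mk' a₁ (Submodule.span ℝ (Set.range ![a₂ - a₁, d]))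
        rw [AffineSubspace.mem_mk', vsub_eq_sub]
        have e : c - a₁ = s • (a₂ - a₁) + (-t) • d := by
          have : c = a₁ + s • (a₂ - a₁) - t • d := by
            rw [← hx]
            abel
          rw [this]
          module
        rw [e]
        exact Submodule.add_mem _
          (Submodule.smul_mem _ _ (Submodule.subset_span ⟨0, rfl⟩))
          (Submodule.smul_mem _ _ (Submodule.subset_span ⟨1, rfl⟩))
      rcases ha₁ with rfl | rfl <;> rcases ha₂ with rfl | rfl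
      · exact Or.inl (Or.inl (Or.inl hmem))
      · exact Or.inl (Or.inl (Or.inr hmem))
      · exact Or.inl (Or.inr hmem)
      · exact Or.inr hmem
  have hpos : 0 < volume (interior K) := isOpen_interior.measure_pos volume hK.int
  have hzero : volume (A p₁ p₂ ∪ A p₁ q₂ ∪ A q₁ p₂ ∪ A q₁ q₂) = 0 := by
    simp [measure_union_null_iff, hAnull]
  exact absurd (measure_mono_null hcover hzero) hpos.ne'

/-- Module M4, abstract form: three segments with endpoints in `K` meet every pair with the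
star property. -/
theorem M4h10_core {K : Set E3} (hK : Body K) (Eff : E3 → E3 → Prop)
    (hEff : ∀ p q, Eff p q → p ∈ K ∧ q ∈ K ∧
      ∀ x ∈ frontier K, segment ℝ p x ⊆ frontier K ∨ segment ℝ q x ⊆ frontier K) :
    ∃ α β : Fin 3 → E3, (∀ j, α j ∈ K ∧ β j ∈ K) ∧
      ∀ p q, Eff p q →
        (p ∈ ⋃ j, segment ℝ (α j) (β j)) ∨ (q ∈ ⋃ j, segment ℝ (α j) (β j)) := by
  by_cases hA : M4h10_ThreeFacets K
  · obtain ⟨g₁, M₁, g₂, M₂, g₃, M₃, hF₁, hF₂, hF₃, h12, h13, h23⟩ := hA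
    obtain ⟨α₀, β₀, hα₀, hβ₀, hseg₀⟩ := M4h10_two_planes hK hF₁.1 hF₂.1 h12
    obtain ⟨α₁, β₁, hα₁, hβ₁, hseg₁⟩ := M4h10_two_planes hK hF₁.1 hF₃.1 h13
    obtain ⟨α₂, β₂, hα₂, hβ₂, hseg₂⟩ := M4h10_two_planes hK hF₂.1 hF₃.1 h23
    refine ⟨![α₀, α₁, α₂], ![β₀, β₁, β₂], ?_, ?_⟩
    · intro j
      fin_cases j
      · exact ⟨hα₀, hβ₀⟩
      · exact ⟨hα₁, hβ₁⟩
      · exact ⟨hα₂, hβ₂⟩
    · intro p q hpq
      obtain ⟨hp, hq, hstar⟩ := hEff p q hpq
      have c1 := M4h10_facet_hit hK hF₁ hp hq hstar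
      have c2 := M4h10_facet_hit hK hF₂ hp hq hstar
      have c3 := M4h10_facet_hit hK hF₃ hp hq hstar
      have m0 : ∀ y, y ∈ segment ℝ α₀ β₀ →
          y ∈ ⋃ j, segment ℝ (![α₀, α₁, α₂] j) (![β₀, β₁, β₂] j) :=
        fun y hy => mem_iUnion.2 ⟨0, hy⟩
      have m1 : ∀ y, y ∈ segment ℝ α₁ β₁ →
          y ∈ ⋃ j, segment ℝ (![α₀, α₁, α₂] j) (![β₀, β₁, β₂] j) :=
        fun y hy => mem_iUnion.2 ⟨1, hy⟩
      have m2 : ∀ y, y ∈ segment ℝ α₂ β₂ →
          y ∈ ⋃ j, segment ℝ (![α₀, α₁, α₂] j) (![β₀, β₁, β₂] j) :=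
        fun y hy => mem_iUnion.2 ⟨2, hy⟩
      rcases c1 with a | a <;> rcases c2 with b | b <;> rcases c3 with c | c
      · exact Or.inl (m0 p (hseg₀ p hp a b))
      · exact Or.inl (m0 p (hseg₀ p hp a b))
      · exact Or.inl (m1 p (hseg₁ p hp a c))
      · exact Or.inr (m2 q (hseg₂ q hq b c))
      · exact Or.inl (m2 p (hseg₂ p hp b c))
      · exact Or.inr (m1 q (hseg₁ q hq a c))
      · exact Or.inr (m0 q (hseg₀ q hq a b))
      · exact Or.inr (m0 q (hseg₀ q hq a b))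
  · by_cases hE : ∃ p q, Eff p q
    · obtain ⟨p₁, q₁, h1⟩ := hE
      obtain ⟨hp₁, hq₁, hs₁⟩ := hEff p₁ q₁ h1
      refine ⟨![p₁, q₁, p₁], ![p₁, q₁, p₁], ?_, ?_⟩
      · intro j
        fin_cases j
        · exact ⟨hp₁, hp₁⟩
        · exact ⟨hq₁, hq₁⟩
        · exact ⟨hp₁, hp₁⟩
      · intro p q hpq
        obtain ⟨hp, hq, hs⟩ := hEff p q hpq
        have m0 : p₁ ∈ ⋃ j, segment ℝ (![p₁, q₁, p₁] j) (![p₁, q₁, p₁] j) :=
          mem_iUnion.2 ⟨0, left_mem_segment ℝ _ _⟩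
        have m1 : q₁ ∈ ⋃ j, segment ℝ (![p₁, q₁, p₁] j) (![p₁, q₁, p₁] j) :=
          mem_iUnion.2 ⟨1, left_mem_segment ℝ _ _⟩
        rcases M4h10_share hK hA hp₁ hq₁ hp hq hs₁ hs with h | h | h | h
        · exact Or.inl (h ▸ m0)
        · exact Or.inr (h ▸ m0)
        · exact Or.inl (h ▸ m1)
        · exact Or.inr (h ▸ m1)
    · obtain ⟨c, hc⟩ := hK.int
      exact ⟨fun _ => c, fun _ => c, fun _ => ⟨interior_subset hc, interior_subset hc⟩,
        fun p q hpq => absurd ⟨p, q, hpq⟩ hE⟩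

/-- Module M4 with the star property of efficient chords (skeleton statement `M3b_eff_star`)
as a hypothesis: three segments with endpoints in `K` meet every efficient chord. -/
theorem M4h10_exists_hitting_of_star {K : Set E3} (hK : Body K)
    (hstar : ∀ {p q : E3}, p ∈ K → q ∈ K → p ≠ q →
      Ahat K (q - p) = 3 * (volume K).toReal → ∀ {x : E3}, x ∈ frontier K →
        segment ℝ p x ⊆ frontier K ∨ segment ℝ q x ⊆ frontier K) :
    ∃ α β : Fin 3 → E3, (∀ j, α j ∈ K ∧ β j ∈ K) ∧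
      ∀ p ∈ K, ∀ q ∈ K, p ≠ q → Ahat K (q - p) = 3 * (volume K).toReal →
        (p ∈ ⋃ j, segment ℝ (α j) (β j)) ∨ (q ∈ ⋃ j, segment ℝ (α j) (β j)) := by
  obtain ⟨α, β, h1, h2⟩ := M4h10_core hK
    (fun p q => p ∈ K ∧ q ∈ K ∧ p ≠ q ∧ Ahat K (q - p) = 3 * (volume K).toReal)
    (fun p q h => ⟨h.1, h.2.1, fun x hx => hstar h.1 h.2.1 h.2.2.1 h.2.2.2 hx⟩)
  exact ⟨α, β, h1, fun p hp q hq hpq heff => h2 p q ⟨hp, hq, hpq, heff⟩⟩

end Vale.Agent.Lib.P243.R3
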