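import Mathlib
import Vale.Agent.Lib.P243.R3.Defs
import Vale.Agent.Lib.P243.R3.Defs4

/-!
# P243, `r_3 > 1/3`, module M4 (part): two star chords share an endpoint

If every facet plane of a convex body `K` is one of two given supporting planes, then any two
chords of `K` with the star property have a common endpoint. Otherwise every boundary point
would lie on one of the two planes or on one of four lines, and the interior of `K` would be
covered by four planes.
-/

namespace Vale.Agent.Lib.P243.R3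

open MeasureTheory Set

/-- A nonzero functional bounded by `M` on `K` is strictly below `M` on the interior. -/
theorem M4share_lt_of_mem_interior {K : Set E3} {f : E3 →L[ℝ] ℝ} {M : ℝ} (hf : f ≠ 0)
    (hs : ∀ k ∈ K, f k ≤ M) {c : E3} (hc : c ∈ interior K) : f c < M := by
  have hopen : IsOpen (f '' interior K) := f.isOpenMap_of_ne_zero hf _ isOpen_interior
  have hsub : f '' interior K ⊆ Iic M := by
    rintro _ ⟨y, hy, rfl⟩
    exact hs y (interior_subset hy)
  have h1 : f c ∈ interior (Iic M) := interior_maximal hsub hopen ⟨c, hc, rfl⟩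
  rw [interior_Iic] at h1
  exact h1

/-- SUP: a segment inside the boundary lies in a supporting plane. -/
theorem M4share_sup {K : Set E3} (hK : Body K) {a b : E3}
    (h : segment ℝ a b ⊆ frontier K) :
    ∃ (f : E3 →L[ℝ] ℝ) (M : ℝ), f ≠ 0 ∧ (∀ k ∈ K, f k ≤ M) ∧ f a = M ∧ f b = M := by
  have hcl : IsClosed K := hK.compact.isClosed
  have ha : a ∈ K := hcl.frontier_subset (h (left_mem_segment ℝ a b))
  have hb : b ∈ K := hcl.frontier_subset (h (right_mem_segment ℝ a b))
  have hm : midpoint ℝ a b ∈ frontier K := h (midpoint_mem_segment a b)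
  have hmi : midpoint ℝ a b ∉ interior K := hm.2
  obtain ⟨f, hf⟩ := geometric_hahn_banach_open_point hK.conv.interior isOpen_interior hmi
  have hle : ∀ k ∈ K, f k ≤ f (midpoint ℝ a b) := by
    intro k hk
    have hk' : k ∈ closure (interior K) := by
      rw [hK.conv.closure_interior_eq_closure_of_nonempty_interior hK.int]
      exact subset_closure hk
    have hcl' : IsClosed {y : E3 | f y ≤ f (midpoint ℝ a b)} :=
      isClosed_le f.continuous continuous_const
    exact closure_minimal (fun y hy => (hf y hy).le) hcl' hk'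
  have h3 : f (midpoint ℝ a b) = (1 / 2) * f a + (1 / 2) * f b := by
    rw [midpoint_eq_smul_add]
    simp only [map_smul, map_add, smul_eq_mul, invOf_eq_inv]
    ring
  have h1 := hle a ha
  have h2 := hle b hb
  refine ⟨f, f (midpoint ℝ a b), ?_, hle, ?_, ?_⟩
  · rintro rfl
    obtain ⟨c, hc⟩ := hK.int
    simpa using hf c hc
  · linarith
  · linarith

/-- A line through an interior point leaves the body through a boundary point. -/
theorem M4share_exit {K : Set E3} (hK : Body K) {c d : E3} (hc : c ∈ interior K)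
    (hd : d ≠ 0) : ∃ t : ℝ, c + t • d ∈ frontier K := by
  have hg : Continuous (fun t : ℝ => c + t • d) := by fun_prop
  have hS_closed : IsClosed ((fun t : ℝ => c + t • d) ⁻¹' K) :=
    hK.compact.isClosed.preimage hg
  have hS_bdd : Bornology.IsBounded ((fun t : ℝ => c + t • d) ⁻¹' K) := by
    obtain ⟨R, hR⟩ := hK.compact.isBounded.subset_closedBall (0 : E3)
    refine (Metric.isBounded_closedBall (x := (0 : ℝ)) (r := (R + ‖c‖) / ‖d‖)).subset ?_
    intro t ht
    have h1 : ‖c + t • d‖ ≤ R := by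
      have := hR ht
      rwa [mem_closedBall_zero_iff] at this
    have h2 : ‖t • d‖ ≤ R + ‖c‖ := by
      have e : t • d = (c + t • d) - c := by abel
      calc ‖t • d‖ = ‖(c + t • d) - c‖ := by rw [← e]
        _ ≤ ‖c + t • d‖ + ‖c‖ := norm_sub_le _ _
        _ ≤ R + ‖c‖ := by linarith
    rw [norm_smul] at h2
    rw [mem_closedBall_zero_iff, le_div_iff₀ (norm_pos_iff.mpr hd)]
    exact h2
  have hS_compact : IsCompact ((fun t : ℝ => c + t • d) ⁻¹' K) :=
    Metric.isCompact_of_isClosed_isBounded hS_closed hS_bdd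
  have hS_ne : ((fun t : ℝ => c + t • d) ⁻¹' K).Nonempty :=
    ⟨0, by simpa using interior_subset hc⟩
  obtain ⟨t0, ht0, hmax⟩ := hS_compact.exists_isGreatest hS_ne
  refine ⟨t0, ?_⟩
  rw [frontier, hK.compact.isClosed.closure_eq]
  refine ⟨ht0, fun hint => ?_⟩
  have hopen : IsOpen ((fun t : ℝ => c + t • d) ⁻¹' interior K) :=
    isOpen_interior.preimage hg
  obtain ⟨ε, hε, hball⟩ := Metric.isOpen_iff.mp hopen t0 hint
  have hmem : t0 + ε / 2 ∈ (fun t : ℝ => c + t • d) ⁻¹' interior K := by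
    apply hball
    rw [Metric.mem_ball, Real.dist_eq]
    have e : t0 + ε / 2 - t0 = ε / 2 := by ring
    rw [e, abs_of_pos (by positivity)]
    linarith
  have hmemK : c + (t0 + ε / 2) • d ∈ K := interior_subset hmem
  have h5 : t0 + ε / 2 ≤ t0 := hmax hmemK
  linarith

/-- A plane (or a smaller affine set) has volume zero. -/
theorem M4share_plane_null (a u v : E3) :
    volume {y : E3 | ∃ s t : ℝ, y = a + s • u + t • v} = 0 := by
  have hsub : {y : E3 | ∃ s t : ℝ, y = a + s • u + t • v}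
      ⊆ (fun y => y + (-a)) ⁻¹' (Submodule.span ℝ ({u, v} : Set E3) : Set E3) := by
    rintro y ⟨s, t, rfl⟩
    simp only [mem_preimage, SetLike.mem_coe]
    have e : a + s • u + t • v + (-a) = s • u + t • v := by abel
    rw [e]
    exact Submodule.add_mem _
      (Submodule.smul_mem _ _ (Submodule.subset_span (by simp)))
      (Submodule.smul_mem _ _ (Submodule.subset_span (by simp)))
  have hne : Submodule.span ℝ ({u, v} : Set E3) ≠ ⊤ := by
    intro htop
    have h1 : Module.finrank ℝ (Submodule.span ℝ ({u, v} : Set E3)) ≤ 2 := by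
      have h2 := finrank_span_finset_le_card (R := ℝ) ({u, v} : Finset E3)
      rw [Set.finrank, Finset.coe_pair] at h2
      exact h2.trans Finset.card_le_two
    rw [htop, finrank_top, finrank_euclideanSpace] at h1
    simp at h1
  have h0 : volume (Submodule.span ℝ ({u, v} : Set E3) : Set E3) = 0 :=
    Measure.addHaar_submodule volume _ hne
  have h1 : volume ((fun y => y + (-a)) ⁻¹' (Submodule.span ℝ ({u, v} : Set E3) : Set E3))
      = 0 := by
    rw [measure_preimage_add_right]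
    exact h0
  exact measure_mono_null hsub h1

/-- The key step: a boundary point joined to `a1`, whose midpoint with `a1` is joined to `a2`,
lies in a facet plane or on the line through `a1` and `a2`. -/
theorem M4share_key {K : Set E3} (hK : Body K) (f1 f2 : E3 →L[ℝ] ℝ) (M1 M2 : ℝ)
    (hF : ∀ (f : E3 →L[ℝ] ℝ) (M : ℝ), Facet K f M →
      ({x | f x = M} = {x | f1 x = M1} ∨ {x | f x = M} = {x | f2 x = M2}))
    {x a1 a2 : E3} (hx : x ∈ K) (ha1 : a1 ∈ K) (ha2 : a2 ∈ K) (hne : a1 ≠ a2)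
    (hseg : segment ℝ a2 (midpoint ℝ a1 x) ⊆ frontier K) :
    f1 x = M1 ∨ f2 x = M2 ∨ ∃ t : ℝ, x = a1 + t • (a2 - a1) := by
  obtain ⟨f, M, hf, hs, hfa2, hfm⟩ := M4share_sup hK hseg
  have h3 : f (midpoint ℝ a1 x) = (1 / 2) * f a1 + (1 / 2) * f x := by
    rw [midpoint_eq_smul_add]
    simp only [map_smul, map_add, smul_eq_mul, invOf_eq_inv]
    ring
  have h1 := hs a1 ha1
  have h2 := hs x hx
  have hfa1 : f a1 = M := by linarith
  have hfx : f x = M := by linarith
  by_cases hli : LinearIndependent ℝ ![a2 - a1, x - a1]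
  · have hfacet : Facet K f M :=
      ⟨hf, hs, a1, a2, x, ha1, ha2, hx, hfa1, hfa2, hfx, hli⟩
    have hxm : x ∈ {y : E3 | f y = M} := hfx
    rcases hF f M hfacet with h | h
    · rw [h] at hxm
      exact Or.inl hxm
    · rw [h] at hxm
      exact Or.inr (Or.inl hxm)
  · have hne' : a2 - a1 ≠ 0 := sub_ne_zero.mpr (Ne.symm hne)
    rw [LinearIndependent.pair_iff' hne'] at hli
    push Not at hli
    obtain ⟨t, ht⟩ := hli
    refine Or.inr (Or.inr ⟨t, ?_⟩)
    rw [ht]
    abel

/-- Every boundary point lies on one of the two planes or on one of four lines. -/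
theorem M4share_cover {K : Set E3} (hK : Body K) (f1 f2 : E3 →L[ℝ] ℝ) (M1 M2 : ℝ)
    (hF : ∀ (f : E3 →L[ℝ] ℝ) (M : ℝ), Facet K f M →
      ({x | f x = M} = {x | f1 x = M1} ∨ {x | f x = M} = {x | f2 x = M2}))
    {p1 q1 p2 q2 : E3} (h1 : Star K p1 q1) (h2 : Star K p2 q2)
    (hne : ∀ a1 ∈ ({p1, q1} : Set E3), ∀ a2 ∈ ({p2, q2} : Set E3), a1 ≠ a2)
    {x : E3} (hx : x ∈ frontier K) :
    f1 x = M1 ∨ f2 x = M2 ∨ ∃ a1 ∈ ({p1, q1} : Set E3), ∃ a2 ∈ ({p2, q2} : Set E3),
      ∃ t : ℝ, x = a1 + t • (a2 - a1) := by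
  obtain ⟨hp1, hq1, -, hst1⟩ := h1
  obtain ⟨hp2, hq2, -, hst2⟩ := h2
  have hxK : x ∈ K := hK.compact.isClosed.frontier_subset hx
  have step : ∀ a1 ∈ ({p1, q1} : Set E3), a1 ∈ K → segment ℝ a1 x ⊆ frontier K →
      (f1 x = M1 ∨ f2 x = M2 ∨ ∃ a1 ∈ ({p1, q1} : Set E3), ∃ a2 ∈ ({p2, q2} : Set E3),
        ∃ t : ℝ, x = a1 + t • (a2 - a1)) := by
    intro a1 ha1 ha1K hseg1
    have hx' : midpoint ℝ a1 x ∈ frontier K := hseg1 (midpoint_mem_segment a1 x)
    rcases hst2 _ hx' with hseg2 | hseg2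
    · rcases M4share_key hK f1 f2 M1 M2 hF hxK ha1K hp2 (hne a1 ha1 p2 (by simp)) hseg2
        with h | h | ⟨t, ht⟩
      · exact Or.inl h
      · exact Or.inr (Or.inl h)
      · exact Or.inr (Or.inr ⟨a1, ha1, p2, by simp, t, ht⟩)
    · rcases M4share_key hK f1 f2 M1 M2 hF hxK ha1K hq2 (hne a1 ha1 q2 (by simp)) hseg2
        with h | h | ⟨t, ht⟩
      · exact Or.inl h
      · exact Or.inr (Or.inl h)
      · exact Or.inr (Or.inr ⟨a1, ha1, q2, by simp, t, ht⟩)
  rcases hst1 x hx with hseg1 | hseg1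
  · exact step p1 (by simp) hp1 hseg1
  · exact step q1 (by simp) hq1 hseg1

/-- Two star chords share an endpoint when every facet plane is one of two supporting
planes. -/
theorem M4_share {K : Set E3} (hK : Body K) (f1 f2 : E3 →L[ℝ] ℝ) (M1 M2 : ℝ)
    (hf1 : f1 ≠ 0) (hf2 : f2 ≠ 0) (hs1 : ∀ k ∈ K, f1 k ≤ M1) (hs2 : ∀ k ∈ K, f2 k ≤ M2)
    (hF : ∀ (f : E3 →L[ℝ] ℝ) (M : ℝ), Facet K f M →
      ({x | f x = M} = {x | f1 x = M1} ∨ {x | f x = M} = {x | f2 x = M2}))
    {p1 q1 p2 q2 : E3} (h1 : Star K p1 q1) (h2 : Star K p2 q2) :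
    p1 = p2 ∨ p1 = q2 ∨ q1 = p2 ∨ q1 = q2 := by
  by_contra hcon
  push Not at hcon
  obtain ⟨n1, n2, n3, n4⟩ := hcon
  have hne : ∀ a1 ∈ ({p1, q1} : Set E3), ∀ a2 ∈ ({p2, q2} : Set E3), a1 ≠ a2 := by
    intro a1 ha1 a2 ha2
    rcases ha1 with rfl | rfl <;> rcases ha2 with rfl | rfl <;> assumption
  -- a direction parallel to both planes
  obtain ⟨d, hdker, hd0⟩ : ∃ d ∈ LinearMap.ker
      ((f1 : E3 →ₗ[ℝ] ℝ).prod (f2 : E3 →ₗ[ℝ] ℝ)), d ≠ 0 := by
    apply Submodule.exists_mem_ne_zero_of_ne_bot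
    apply LinearMap.ker_ne_bot_of_finrank_lt
    simp
  have hd1 : f1 d = 0 := by
    have := hdker
    rw [LinearMap.mem_ker, LinearMap.prod_apply, Prod.mk_eq_zero] at this
    exact this.1
  have hd2 : f2 d = 0 := by
    have := hdker
    rw [LinearMap.mem_ker, LinearMap.prod_apply, Prod.mk_eq_zero] at this
    exact this.2
  -- the interior is covered by four planes
  have hcov : interior K ⊆ ⋃ a1 ∈ ({p1, q1} : Set E3), ⋃ a2 ∈ ({p2, q2} : Set E3),
      {y : E3 | ∃ s t : ℝ, y = a1 + s • (a2 - a1) + t • d} := by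
    intro c hc
    obtain ⟨t0, ht0⟩ := M4share_exit hK hc hd0
    have e1 : f1 (c + t0 • d) ≠ M1 := by
      have := M4share_lt_of_mem_interior hf1 hs1 hc
      simp only [map_add, map_smul, hd1, smul_eq_mul, mul_zero, add_zero]
      exact this.ne
    have e2 : f2 (c + t0 • d) ≠ M2 := by
      have := M4share_lt_of_mem_interior hf2 hs2 hc
      simp only [map_add, map_smul, hd2, smul_eq_mul, mul_zero, add_zero]
      exact this.ne
    rcases M4share_cover hK f1 f2 M1 M2 hF h1 h2 hne ht0 with h | h | ⟨a1, ha1, a2, ha2, t, ht⟩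
    · exact absurd h e1
    · exact absurd h e2
    · refine mem_iUnion₂.mpr ⟨a1, ha1, mem_iUnion₂.mpr ⟨a2, ha2, t, -t0, ?_⟩⟩
      rw [← ht]
      simp
  have hnull : volume (⋃ a1 ∈ ({p1, q1} : Set E3), ⋃ a2 ∈ ({p2, q2} : Set E3),
      {y : E3 | ∃ s t : ℝ, y = a1 + s • (a2 - a1) + t • d}) = 0 := by
    rw [measure_biUnion_null_iff (Set.to_countable _)]
    intro a1 _
    rw [measure_biUnion_null_iff (Set.to_countable _)]
    intro a2 _
    exact M4share_plane_null a1 (a2 - a1) d
  have hpos : 0 < volume (interior K) := isOpen_interior.measure_pos volume hK.int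
  have hzero : volume (interior K) = 0 := measure_mono_null hcov hnull
  rw [hzero] at hpos
  exact lt_irrefl _ hpos

end Vale.Agent.Lib.P243.R3
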