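import Mathlib
import Vale.Agent.Lib.P243.Defs
import Vale.Agent.Lib.P243.R3.Defs

/-!
# P243, `r_3 > 1/3`, module M5ab: the bump function is continuous and takes values in `[0, 1]`
-/

namespace Vale.Agent.Lib.P243.R3

open MeasureTheory Set Vale.Agent.Lib.P243 Vale.Agent.Lib.P243.R3

theorem M5a_bump_continuous {V : Set E3} (hV : V.Nonempty) {τ : ℝ} (hτ : 0 < τ) :
    Continuous (bump V τ) := by
  have _h1 := hV
  have _h2 := hτ
  have hc : Continuous (fun x : E3 => max 0 (1 - Metric.infDist x V / τ)) :=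
    continuous_const.max
      (continuous_const.sub ((Metric.continuous_infDist_pt V).div_const τ))
  exact hc

theorem M5b_bump_mem (V : Set E3) {τ : ℝ} (hτ : 0 < τ) (x : E3) :
    0 ≤ bump V τ x ∧ bump V τ x ≤ 1 := by
  have h0 : 0 ≤ Metric.infDist x V / τ := div_nonneg Metric.infDist_nonneg hτ.le
  refine ⟨le_max_left _ _, ?_⟩
  unfold bump
  exact max_le zero_le_one (by linarith)

end Vale.Agent.Lib.P243.R3
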