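import Mathlib
import Vale.Agent.Lib.P243.Defs
import Vale.Agent.Lib.P243.R3.Defs

/-!
# P243, `r_3 > 1/3`, module M5c: the bump of three segments has integral `O(τ ^ 2)`
-/

namespace Vale.Agent.Lib.P243.R3

open MeasureTheory Set Metric

/-- Every point of a segment is within `τ` of a point of a uniform grid with `N + 1` points,
as soon as the length of the segment is at most `N * τ`. -/
theorem M5c_aux_grid (a b : E3) {τ : ℝ} (N : ℕ) (hN : ‖b - a‖ ≤ N * τ)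
    (hN0 : 0 < N) {y : E3} (hy : y ∈ segment ℝ a b) :
    ∃ k ∈ Finset.range (N + 1), dist y (a + ((k : ℝ) / N) • (b - a)) ≤ τ := by
  rw [segment_eq_image'] at hy
  obtain ⟨s, ⟨hs0, hs1⟩, rfl⟩ := hy
  have hNpos : (0 : ℝ) < N := by exact_mod_cast hN0
  have hsN : 0 ≤ s * N := by positivity
  have h1 : (⌊s * N⌋₊ : ℝ) ≤ s * N := Nat.floor_le hsN
  have h2 : s * N < ⌊s * N⌋₊ + 1 := Nat.lt_floor_add_one _
  refine ⟨⌊s * N⌋₊, ?_, ?_⟩
  · rw [Finset.mem_range]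
    have h3 : ⌊s * N⌋₊ ≤ N := by
      apply Nat.floor_le_of_le
      calc s * N ≤ 1 * N := by gcongr
        _ = N := one_mul _
    omega
  · rw [dist_eq_norm]
    have h4 : a + s • (b - a) - (a + ((⌊s * N⌋₊ : ℝ) / N) • (b - a)) =
        (s - (⌊s * N⌋₊ : ℝ) / N) • (b - a) := by
      rw [sub_smul]
      abel
    rw [h4, norm_smul, Real.norm_eq_abs]
    have h5 : |s - (⌊s * N⌋₊ : ℝ) / N| ≤ 1 / N := by
      have h6 : s - (⌊s * N⌋₊ : ℝ) / N = (s * N - ⌊s * N⌋₊) / N := by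
        field_simp
      rw [h6, abs_div, abs_of_pos hNpos]
      apply div_le_div_of_nonneg_right _ hNpos.le
      rw [abs_le]
      constructor <;> linarith
    have hτ0 : 0 ≤ (N : ℝ) * τ := le_trans (norm_nonneg _) hN
    calc |s - (⌊s * N⌋₊ : ℝ) / N| * ‖b - a‖ ≤ (1 / N) * (N * τ) := by gcongr
      _ = τ := by field_simp

theorem M5c_bump_integral_le {K : Set E3} (hK : Body K) (α β : Fin 3 → E3) :
    ∃ C : ℝ, 0 ≤ C ∧ ∀ τ : ℝ, 0 < τ → τ ≤ 1 →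
      ∫ x in K, bump (⋃ j, segment ℝ (α j) (β j)) τ x ≤ C * τ ^ 2 := by
  have _hKc := hK.compact
  obtain ⟨ω, hω⟩ : ∃ ω : ℝ, ω = (volume (ball (0 : E3) 1)).toReal := ⟨_, rfl⟩
  have hω0 : 0 ≤ ω := by
    rw [hω]
    exact ENNReal.toReal_nonneg
  refine ⟨∑ j, 8 * ω * (‖β j - α j‖ + 3), ?_, ?_⟩
  · apply Finset.sum_nonneg
    intro j _
    have := norm_nonneg (β j - α j)
    positivity
  intro τ hτ hτ1
  obtain ⟨V, hV⟩ : ∃ V : Set E3, V = ⋃ j, segment ℝ (α j) (β j) := ⟨_, rfl⟩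
  rw [← hV]
  have hVne : V.Nonempty := by
    rw [hV]
    exact ⟨α 0, mem_iUnion.2 ⟨0, left_mem_segment ℝ _ _⟩⟩
  obtain ⟨N, hNdef⟩ : ∃ N : Fin 3 → ℕ, N = fun j => ⌈‖β j - α j‖ / τ⌉₊ + 1 := ⟨_, rfl⟩
  have hN0 : ∀ j, 0 < N j := by
    intro j
    rw [hNdef]
    exact Nat.succ_pos _
  have hNle : ∀ j, ‖β j - α j‖ ≤ N j * τ := by
    intro j
    have h1 : ‖β j - α j‖ / τ ≤ ⌈‖β j - α j‖ / τ⌉₊ := Nat.le_ceil _
    have h2 : ‖β j - α j‖ ≤ ⌈‖β j - α j‖ / τ⌉₊ * τ := by rwa [div_le_iff₀ hτ] at h1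
    rw [hNdef]
    push_cast
    nlinarith
  have hNup : ∀ j, ((N j + 1 : ℕ) : ℝ) ≤ ‖β j - α j‖ / τ + 3 := by
    intro j
    have h0 : 0 ≤ ‖β j - α j‖ / τ := div_nonneg (norm_nonneg _) hτ.le
    have h1 : (⌈‖β j - α j‖ / τ⌉₊ : ℝ) < ‖β j - α j‖ / τ + 1 := Nat.ceil_lt_add_one h0
    rw [hNdef]
    push_cast
    linarith
  obtain ⟨U, hU⟩ : ∃ U : Set E3, U = ⋃ j, ⋃ k ∈ Finset.range (N j + 1),
      ball (α j + ((k : ℝ) / N j) • (β j - α j)) (2 * τ) := ⟨_, rfl⟩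
  have hsub : ∀ x ∈ Uᶜ, bump V τ x ≤ 0 := by
    intro x hx
    unfold bump
    apply max_le le_rfl
    by_contra hcon
    rw [not_le] at hcon
    have hlt : infDist x V < τ := by
      have h1 : infDist x V / τ < 1 := by linarith
      rwa [div_lt_one hτ] at h1
    obtain ⟨y, hyV, hxy⟩ := (infDist_lt_iff hVne).1 hlt
    rw [hV] at hyV
    obtain ⟨j, hyj⟩ := mem_iUnion.1 hyV
    obtain ⟨k, hk, hdk⟩ := M5c_aux_grid (α j) (β j) (N j) (hNle j) (hN0 j) hyj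
    apply hx
    rw [hU]
    refine mem_iUnion.2 ⟨j, mem_iUnion₂.2 ⟨k, hk, ?_⟩⟩
    rw [mem_ball]
    calc dist x (α j + ((k : ℝ) / N j) • (β j - α j))
        ≤ dist x y + dist y (α j + ((k : ℝ) / N j) • (β j - α j)) := dist_triangle _ _ _
      _ < τ + τ := by linarith
      _ = 2 * τ := by ring
  have hle1 : ∀ x ∈ U, bump V τ x ≤ 1 := by
    intro x _
    unfold bump
    apply max_le zero_le_one
    have h1 : 0 ≤ infDist x V / τ := div_nonneg infDist_nonneg hτ.le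
    linarith
  have key : ENNReal.ofReal (∫ x in K, bump V τ x) ≤ (volume.restrict K) U :=
    integral_le_measure hle1 hsub
  have hball : ∀ y : E3, volume (ball y (2 * τ)) = ENNReal.ofReal ((2 * τ) ^ 3 * ω) := by
    intro y
    have hfin : Module.finrank ℝ E3 = 3 := by simp
    rw [Measure.addHaar_ball volume y (by positivity), hfin,
      ENNReal.ofReal_mul (by positivity), hω, ENNReal.ofReal_toReal measure_ball_lt_top.ne]
  have hc0 : 0 ≤ (2 * τ) ^ 3 * ω := by positivity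
  have hUle : volume U ≤ ENNReal.ofReal (∑ j, ((N j + 1 : ℕ) : ℝ) * ((2 * τ) ^ 3 * ω)) := by
    rw [hU]
    calc volume (⋃ j, ⋃ k ∈ Finset.range (N j + 1),
          ball (α j + ((k : ℝ) / N j) • (β j - α j)) (2 * τ))
        ≤ ∑ j, volume (⋃ k ∈ Finset.range (N j + 1),
          ball (α j + ((k : ℝ) / N j) • (β j - α j)) (2 * τ)) := measure_iUnion_fintype_le _ _
      _ ≤ ∑ j, ∑ k ∈ Finset.range (N j + 1),
          volume (ball (α j + ((k : ℝ) / N j) • (β j - α j)) (2 * τ)) :=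
        Finset.sum_le_sum (fun j _ => measure_biUnion_finset_le _ _)
      _ = ∑ j, ∑ _k ∈ Finset.range (N j + 1), ENNReal.ofReal ((2 * τ) ^ 3 * ω) := by
        simp only [hball]
      _ = ENNReal.ofReal (∑ j, ((N j + 1 : ℕ) : ℝ) * ((2 * τ) ^ 3 * ω)) := by
        rw [ENNReal.ofReal_sum_of_nonneg (fun j _ => mul_nonneg (Nat.cast_nonneg _) hc0)]
        refine Finset.sum_congr rfl (fun j _ => ?_)
        rw [Finset.sum_const, Finset.card_range, nsmul_eq_mul,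
          ENNReal.ofReal_mul (Nat.cast_nonneg _), ENNReal.ofReal_natCast]
  have hR0 : 0 ≤ ∑ j, ((N j + 1 : ℕ) : ℝ) * ((2 * τ) ^ 3 * ω) :=
    Finset.sum_nonneg (fun j _ => mul_nonneg (Nat.cast_nonneg _) hc0)
  have hint : ∫ x in K, bump V τ x ≤ ∑ j, ((N j + 1 : ℕ) : ℝ) * ((2 * τ) ^ 3 * ω) := by
    rw [← ENNReal.ofReal_le_ofReal_iff hR0]
    exact key.trans ((Measure.restrict_apply_le K U).trans hUle)
  refine hint.trans ?_
  rw [Finset.sum_mul]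
  apply Finset.sum_le_sum
  intro j _
  have hL : 0 ≤ ‖β j - α j‖ := norm_nonneg _
  have hτ2 : 0 ≤ τ ^ 2 := by positivity
  have hτ3 : τ ^ 3 ≤ τ ^ 2 := by
    have : τ ^ 3 = τ ^ 2 * τ := by ring
    rw [this]
    exact mul_le_of_le_one_right hτ2 hτ1
  calc ((N j + 1 : ℕ) : ℝ) * ((2 * τ) ^ 3 * ω)
      ≤ (‖β j - α j‖ / τ + 3) * ((2 * τ) ^ 3 * ω) := by
        exact mul_le_mul_of_nonneg_right (hNup j) hc0
    _ = 8 * ω * (‖β j - α j‖ * τ ^ 2 + 3 * τ ^ 3) := by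
        field_simp
        ring
    _ ≤ 8 * ω * (‖β j - α j‖ * τ ^ 2 + 3 * τ ^ 2) := by
        have h8 : 0 ≤ 8 * ω := by positivity
        apply mul_le_mul_of_nonneg_left _ h8
        linarith
    _ = 8 * ω * (‖β j - α j‖ + 3) * τ ^ 2 := by ring

end Vale.Agent.Lib.P243.R3
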