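import Mathlib
import Vale.Agent.Lib.P243.Defs
import Vale.Agent.Lib.P243.R3.Defs

/-!
# P243, `r_3 > 1/3`: module M5d

The average of the bump function of a set `V` along a chord that starts at a point of `V`
is at least `τ / (2 D)` when the chord has length at most `D` and `τ ≤ D`.
-/

namespace Vale.Agent.Lib.P243.R3

open MeasureTheory Set Vale.Agent.Lib.P243 Vale.Agent.Lib.P243.R3
open scoped Pointwise

/-- The bump function is continuous along a line. -/
theorem M5d_aux_cont (V : Set E3) (τ : ℝ) (p q : E3) :
    Continuous (fun t : ℝ => bump V τ (p + t • (q - p))) := by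
  unfold bump
  exact continuous_const.max (continuous_const.sub
    (((Metric.continuous_infDist_pt V).comp (by fun_prop)).div_const τ))

/-- Pointwise lower bound of the bump function along a chord starting in `V`. -/
theorem M5d_aux_lower {V : Set E3} {p : E3} (hp : p ∈ V) (q : E3) {τ D : ℝ} (hτ : 0 < τ)
    (hD : dist p q ≤ D) {t : ℝ} (ht : 0 ≤ t) :
    1 - t * (D / τ) ≤ bump V τ (p + t • (q - p)) := by
  have hinf : Metric.infDist (p + t • (q - p)) V ≤ t * D := by
    calc Metric.infDist (p + t • (q - p)) V ≤ dist (p + t • (q - p)) p :=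
          Metric.infDist_le_dist_of_mem hp
      _ = t * dist p q := by
          rw [dist_eq_norm, add_sub_cancel_left, norm_smul, Real.norm_of_nonneg ht,
            dist_eq_norm, norm_sub_rev]
      _ ≤ t * D := mul_le_mul_of_nonneg_left hD ht
  have h5 : Metric.infDist (p + t • (q - p)) V / τ ≤ t * D / τ :=
    div_le_div_of_nonneg_right hinf hτ.le
  have e : t * (D / τ) = t * D / τ := by ring
  calc 1 - t * (D / τ) ≤ 1 - Metric.infDist (p + t • (q - p)) V / τ := by rw [e]; linarith
    _ ≤ bump V τ (p + t • (q - p)) := le_max_right _ _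

/-- The integral of the linear minorant. -/
theorem M5d_aux_integral {τ D : ℝ} (hτ : 0 < τ) (hD : 0 < D) :
    ∫ t in (0 : ℝ)..(τ / D), (1 - t * (D / τ)) = τ / (2 * D) := by
  have hcont1 : Continuous (fun _ : ℝ => (1 : ℝ)) := continuous_const
  have hcont2 : Continuous (fun t : ℝ => t * (D / τ)) := by fun_prop
  rw [intervalIntegral.integral_sub (hcont1.intervalIntegrable _ _)
    (hcont2.intervalIntegrable _ _)]
  rw [intervalIntegral.integral_mul_const]
  simp only [intervalIntegral.integral_const, integral_id, sub_zero, smul_eq_mul, mul_one]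
  field_simp
  ring

theorem M5d_avg_bump_ge {V : Set E3} {p : E3} (hp : p ∈ V) (q : E3) {τ D : ℝ} (hτ : 0 < τ)
    (hτD : τ ≤ D) (hD : dist p q ≤ D) :
    τ / (2 * D) ≤ avgSeg (bump V τ) p q := by
  unfold avgSeg
  have hDpos : 0 < D := lt_of_lt_of_le hτ hτD
  have hc0 : 0 < τ / D := div_pos hτ hDpos
  have hc1 : τ / D ≤ 1 := (div_le_one hDpos).mpr hτD
  have hcont := M5d_aux_cont V τ p q
  have hsplit := intervalIntegral.integral_add_adjacent_intervals (μ := volume)
    (hcont.intervalIntegrable 0 (τ / D)) (hcont.intervalIntegrable (τ / D) 1)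
  have h2 : 0 ≤ ∫ t in (τ / D)..1, bump V τ (p + t • (q - p)) := by
    apply intervalIntegral.integral_nonneg hc1
    intro t _
    exact le_max_left _ _
  have h1 : ∫ t in (0 : ℝ)..(τ / D), (1 - t * (D / τ))
      ≤ ∫ t in (0 : ℝ)..(τ / D), bump V τ (p + t • (q - p)) := by
    apply intervalIntegral.integral_mono_on hc0.le
    · exact (Continuous.intervalIntegrable (by fun_prop) _ _)
    · exact hcont.intervalIntegrable _ _
    · intro t ht
      exact M5d_aux_lower hp q hτ hD ht.1
  rw [M5d_aux_integral hτ hDpos] at h1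
  linarith

end Vale.Agent.Lib.P243.R3
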