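import Mathlib
import Vale.Agent.Lib.P243.Defs
import Vale.Agent.Lib.P243.R3.Defs

/-!
# P243-R3, M5e/M5f: the segment average is symmetric and continuous (helper5, pool job 246)
-/

namespace Vale.Agent.Lib.P243.R3

open MeasureTheory Set

theorem M5e_avgSeg_symm (g : E3 → ℝ) (p q : E3) : avgSeg g p q = avgSeg g q p := by
  show (∫ t in (0 : ℝ)..1, g (p + t • (q - p))) = ∫ t in (0 : ℝ)..1, g (q + t • (p - q))
  have h := intervalIntegral.integral_comp_sub_left (a := (0:ℝ)) (b := 1)
    (fun t => g (q + t • (p - q))) 1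
  simp only [sub_self, sub_zero] at h
  rw [← h]
  apply intervalIntegral.integral_congr
  intro t _
  simp only
  congr 1
  module

theorem M5f_avgSeg_continuous {g : E3 → ℝ} (hg : Continuous g) :
    Continuous (fun pq : E3 × E3 => avgSeg g pq.1 pq.2) := by
  show Continuous (fun pq : E3 × E3 => ∫ t in (0 : ℝ)..1, g (pq.1 + t • (pq.2 - pq.1)))
  apply intervalIntegral.continuous_parametric_intervalIntegral_of_continuous'
  apply hg.comp
  fun_prop

end Vale.Agent.Lib.P243.R3
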