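import Mathlib
import Vale.Agent.Lib.P243.Defs
import Vale.Agent.Lib.P243.R3.Defs

/-!
# P243, `r_3 > 1/3`, module M7b: the calibration property is monotone in the constant
-/

namespace Vale.Agent.Lib.P243.R3

open MeasureTheory Set

theorem M7b_good_mono {K : Set E3} (hK : Body K) {g : E3 → ℝ} {Θ Θ' : ℝ} (hG : Good K g Θ)
    (h : Θ ≤ Θ') : Good K g Θ' := by
  obtain ⟨hc, hb, hmain⟩ := hG
  refine ⟨hc, hb, fun p hp q hq => (hmain p hp q hq).trans ?_⟩
  have h0 : 0 ≤ ∫ x in K, g x :=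
    setIntegral_nonneg hK.compact.measurableSet (fun x _ => by linarith [(hb x).1])
  exact mul_le_mul_of_nonneg_right h h0

end Vale.Agent.Lib.P243.R3
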