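import Mathlib
import Vale.Agent.Lib.P243.Defs
import Vale.Agent.Lib.P243.R3.Defs
import Vale.Agent.Lib.P243.R3.M1
import Vale.Agent.Lib.P243.R3.M5ab
import Vale.Agent.Lib.P243.R3.M5c
import Vale.Agent.Lib.P243.R3.M5d
import Vale.Agent.Lib.P243.R3.M5ef
import Vale.Agent.Lib.P243.R3.M7b

/-!
# P243, `r_3 > 1/3`: every convex body has a calibration with constant below 3 (module M6)

Per-body step: with `b` a bump function of three segments meeting every efficient chord, the
density `1 + ε (1 - b)` calibrates `K` with a constant `Θ < 3` (compactness of `K × K` and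
continuity of `Ahat K`).
-/

namespace Vale.Agent.Lib.P243.R3

open MeasureTheory Set Vale.Agent.Lib.P243
open scoped Pointwise

lemma M6_avg_affine {b : E3 → ℝ} (hb : Continuous b) (c e : ℝ) (p q : E3) :
    avgSeg (fun x => c + e * b x) p q = c + e * avgSeg b p q := by
  unfold avgSeg
  have hcont : Continuous fun t : ℝ => b (p + t • (q - p)) := by fun_prop
  rw [intervalIntegral.integral_add intervalIntegrable_const
    ((hcont.const_mul e).intervalIntegrable _ _), intervalIntegral.integral_const_mul]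
  simp

lemma M6_avg_nonneg {b : E3 → ℝ} (hb0 : ∀ x, 0 ≤ b x) (p q : E3) : 0 ≤ avgSeg b p q := by
  unfold avgSeg
  exact intervalIntegral.integral_nonneg (by norm_num) (fun t _ => hb0 _)

lemma M6_Ahat_zero (K : Set E3) : Ahat K 0 = 0 := by
  simp [Ahat, segment_same]

lemma M6_gap {W : Set (E3 × E3)} (hW : IsCompact W) {F : E3 × E3 → ℝ} (hF : Continuous F)
    {M : ℝ} (h : ∀ pq ∈ W, F pq < M) : ∃ η : ℝ, 0 < η ∧ ∀ pq ∈ W, F pq ≤ M - η := by
  rcases W.eq_empty_or_nonempty with rfl | hne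
  · exact ⟨1, one_pos, fun pq hpq => absurd hpq (Set.notMem_empty _)⟩
  · obtain ⟨x, hx, hmax⟩ := hW.exists_isMaxOn hne hF.continuousOn
    refine ⟨M - F x, sub_pos.2 (h x hx), fun pq hpq => ?_⟩
    have := isMaxOn_iff.1 hmax pq hpq
    linarith

lemma M6_alg_in {ε B A vol η IK m1 mm : ℝ} (hε0 : 0 < ε) (hB0 : 0 ≤ B) (hA0 : 0 ≤ A)
    (hA1 : A ≤ 3 * vol - η) (hη : 0 < η) (hvol : 0 < vol) (hεM : ε * (3 * vol) ≤ η / 2)
    (hm1 : m1 = 1 - η / (2 * (3 * vol))) (hIK1 : vol ≤ IK) (hmm : m1 ≤ mm) :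
    (1 + ε - ε * B) * A ≤ 3 * mm * IK := by
  have hη3 : η ≤ 3 * vol := by linarith
  have hm1v : m1 * (3 * vol) = 3 * vol - η / 2 := by
    rw [hm1]
    field_simp
  have hm1nn : 0 ≤ m1 := by
    have h0 : 0 ≤ m1 * (3 * vol) := by rw [hm1v]; linarith
    exact nonneg_of_mul_nonneg_left h0 (by positivity)
  have hIK0 : 0 ≤ IK := hvol.le.trans hIK1
  have hx : 1 + ε - ε * B ≤ 1 + ε := by nlinarith [mul_nonneg hε0.le hB0]
  calc (1 + ε - ε * B) * A ≤ (1 + ε) * A := mul_le_mul_of_nonneg_right hx hA0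
    _ ≤ (1 + ε) * (3 * vol - η) := mul_le_mul_of_nonneg_left hA1 (by linarith)
    _ ≤ 3 * vol - η / 2 := by nlinarith [mul_pos hε0 hη]
    _ = 3 * (m1 * vol) := by rw [← hm1v]; ring
    _ ≤ 3 * (m1 * IK) := by
        have := mul_le_mul_of_nonneg_left hIK1 hm1nn
        linarith
    _ ≤ 3 * mm * IK := by
        have := mul_le_mul_of_nonneg_right hmm hIK0
        linarith

lemma M6_alg_out {ε B A vol IB bt IK m2 mm : ℝ} (hε0 : 0 < ε) (hA0 : 0 ≤ A)
    (hA1 : A ≤ 3 * vol) (hvol : 0 < vol) (hlt : IB / vol + bt / 4 < B)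
    (hIBv : IB / vol ≤ bt / 2) (hbt0 : 0 < bt) (hbt1 : bt ≤ 1 / 2)
    (hIKdef : IK = (1 + ε) * vol - ε * IB) (hIK2 : IK ≤ 2 * vol) (hIK0 : 0 ≤ IK)
    (hm2 : m2 = 1 - ε * bt / 8) (hmm : m2 ≤ mm) :
    (1 + ε - ε * B) * A ≤ 3 * mm * IK := by
  have hX0 : 0 ≤ 1 + ε - ε * (IB / vol + bt / 4) := by
    have : ε * (IB / vol + bt / 4) ≤ ε * 1 :=
      mul_le_mul_of_nonneg_left (by linarith) hε0.le
    linarith
  have hXv : (1 + ε - ε * (IB / vol + bt / 4)) * (3 * vol)
      = 3 * (IK - ε * bt * vol / 4) := by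
    rw [hIKdef]
    field_simp
    ring
  have hx : 1 + ε - ε * B ≤ 1 + ε - ε * (IB / vol + bt / 4) := by
    have := mul_le_mul_of_nonneg_left hlt.le hε0.le
    linarith
  calc (1 + ε - ε * B) * A
      ≤ (1 + ε - ε * (IB / vol + bt / 4)) * A := mul_le_mul_of_nonneg_right hx hA0
    _ ≤ (1 + ε - ε * (IB / vol + bt / 4)) * (3 * vol) := mul_le_mul_of_nonneg_left hA1 hX0
    _ = 3 * (IK - ε * bt * vol / 4) := hXv
    _ ≤ 3 * (m2 * IK) := by
        rw [hm2]
        have : ε * bt * IK ≤ ε * bt * (2 * vol) :=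
          mul_le_mul_of_nonneg_left hIK2 (by positivity)
        nlinarith
    _ ≤ 3 * mm * IK := by
        have := mul_le_mul_of_nonneg_right hmm hIK0
        linarith

/-- Every convex body has a chord calibration with constant below `3`, given the cone bound
`Ahat K (q - p) ≤ 3 vol K` (module M3a) and three segments meeting every efficient chord
(module M4). -/
theorem M6_exists_good_of {K : Set E3} (hK : Body K)
    (h3a : ∀ p ∈ K, ∀ q ∈ K, Ahat K (q - p) ≤ 3 * (volume K).toReal)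
    (h4 : ∃ α β : Fin 3 → E3,
      ∀ p ∈ K, ∀ q ∈ K, p ≠ q → Ahat K (q - p) = 3 * (volume K).toReal →
        (p ∈ ⋃ j, segment ℝ (α j) (β j)) ∨ (q ∈ ⋃ j, segment ℝ (α j) (β j))) :
    ∃ (g : E3 → ℝ) (Θ : ℝ), 0 < Θ ∧ Θ < 3 ∧ Good K g Θ := by
  have hKc := hK.compact
  have hKm : MeasurableSet K := hKc.measurableSet
  have hvolpos : 0 < (volume K).toReal :=
    ENNReal.toReal_pos (Measure.measure_pos_of_nonempty_interior volume hK.int).ne'
      hKc.measure_lt_top.ne
  set vol := (volume K).toReal with hvol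
  have hle : ∀ p ∈ K, ∀ q ∈ K, Ahat K (q - p) ≤ 3 * vol := h3a
  have hnn : ∀ w, 0 ≤ Ahat K w := M1g_Ahat_nonneg hKc
  have hFc : Continuous fun pq : E3 × E3 => Ahat K (pq.2 - pq.1) :=
    (M1f_Ahat_continuous hK).comp (continuous_snd.sub continuous_fst)
  have hKK : IsCompact (K ×ˢ K) := hKc.prod hKc
  have hconst : ∀ c : ℝ, ∫ _ in K, c = vol * c := by
    intro c
    rw [setIntegral_const, smul_eq_mul]
    rfl
  by_cases hE : ∃ p ∈ K, ∃ q ∈ K, Ahat K (q - p) = 3 * vol
  swap
  · -- no efficient pair: the constant density works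
    have hlt : ∀ pq ∈ K ×ˢ K, Ahat K (pq.2 - pq.1) < 3 * vol := by
      rintro ⟨p, q⟩ ⟨hp, hq⟩
      exact lt_of_le_of_ne (hle p hp q hq) (fun h => hE ⟨p, hp, q, hq, h⟩)
    obtain ⟨η, hη, hgap⟩ := M6_gap hKK hFc hlt
    have hG : Good K (fun _ => (1 : ℝ)) (3 - η / vol) := by
      refine ⟨continuous_const, fun x => ⟨le_refl _, by norm_num⟩, fun p hp q hq => ?_⟩
      have h1 : avgSeg (fun _ => (1 : ℝ)) p q = 1 := by simp [avgSeg]
      rw [h1, hconst, one_mul, mul_one]
      have := hgap (p, q) ⟨hp, hq⟩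
      have e : (3 - η / vol) * vol = 3 * vol - η := by field_simp
      rw [e]
      exact this
    have hpos : 0 < η / vol := div_pos hη hvolpos
    exact ⟨fun _ => 1, max (3 - η / vol) 2, lt_max_of_lt_right (by norm_num),
      max_lt (by linarith) (by norm_num), M7b_good_mono hK hG (le_max_left _ _)⟩
  · obtain ⟨p0, hp0, q0, hq0, heff0⟩ := hE
    obtain ⟨α, β, hhit⟩ := h4
    set V : Set E3 := ⋃ j, segment ℝ (α j) (β j) with hV
    have hVne : V.Nonempty := ⟨α 0, Set.mem_iUnion.2 ⟨0, left_mem_segment ℝ _ _⟩⟩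
    obtain ⟨D0, hD0⟩ := Metric.isBounded_iff.1 hKc.isBounded
    set D := max D0 1 with hD
    have hD1 : 1 ≤ D := le_max_right _ _
    have hDpos : 0 < D := lt_of_lt_of_le one_pos hD1
    have hDK : ∀ p ∈ K, ∀ q ∈ K, dist p q ≤ D :=
      fun p hp q hq => (hD0 hp hq).trans (le_max_left _ _)
    obtain ⟨C, hC0, hC⟩ := M5c_bump_integral_le hK α β
    have hC1 : 0 < C + 1 := by linarith
    set τ := min 1 (vol / (4 * D * (C + 1))) with hτdef
    have hτ0 : 0 < τ := lt_min one_pos (by positivity)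
    have hτ1 : τ ≤ 1 := min_le_left _ _
    have hτD : τ ≤ D := hτ1.trans hD1
    set bt := τ / (2 * D) with hbt
    have hbt0 : 0 < bt := by positivity
    have hbt1 : bt ≤ 1 / 2 := by
      rw [hbt, div_le_iff₀ (by positivity)]
      nlinarith
    set b := bump V τ with hb
    have hbc : Continuous b := M5a_bump_continuous hVne hτ0
    have hb01 : ∀ x, 0 ≤ b x ∧ b x ≤ 1 := M5b_bump_mem V hτ0
    have hbi : IntegrableOn b K := hbc.continuousOn.integrableOn_compact hKc
    set IB := ∫ x in K, b x with hIB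
    have hIB0 : 0 ≤ IB := setIntegral_nonneg hKm (fun x _ => (hb01 x).1)
    have hIBle : IB ≤ bt / 2 * vol := by
      have h1 : IB ≤ C * τ ^ 2 := hC τ hτ0 hτ1
      have h2 : τ * (4 * D * (C + 1)) ≤ vol := by
        have : τ ≤ vol / (4 * D * (C + 1)) := min_le_right _ _
        rwa [le_div_iff₀ (by positivity)] at this
      have h3 : bt / 2 * vol = τ * vol / (4 * D) := by
        rw [hbt]
        field_simp
        ring
      rw [h3, le_div_iff₀ (by positivity)]
      have h4 : C * τ ^ 2 * (4 * D) ≤ τ * vol := by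
        have h5 : C * τ * (4 * D) ≤ τ * (4 * D * (C + 1)) := by nlinarith [mul_pos hτ0 hDpos]
        nlinarith [mul_pos hτ0 hDpos]
      nlinarith [mul_pos hτ0 hDpos]
    have hIBv : IB / vol ≤ bt / 2 := by
      rw [div_le_iff₀ hvolpos]
      exact hIBle
    have hBp : ∀ p ∈ K, ∀ q ∈ K, (p ∈ V ∨ q ∈ V) → bt ≤ avgSeg b p q := by
      intro p hp q hq h
      rcases h with h | h
      · exact M5d_avg_bump_ge h q hτ0 hτD (hDK p hp q hq)
      · rw [M5e_avgSeg_symm]
        exact M5d_avg_bump_ge h p hτ0 hτD (hDK q hq p hp)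
    have hBc : Continuous fun pq : E3 × E3 => avgSeg b pq.1 pq.2 :=
      M5f_avgSeg_continuous hbc
    set W : Set (E3 × E3) := (K ×ˢ K) ∩ {pq | avgSeg b pq.1 pq.2 ≤ IB / vol + bt / 4} with hW
    have hWc : IsCompact W := hKK.inter_right (isClosed_le hBc continuous_const)
    have hWlt : ∀ pq ∈ W, Ahat K (pq.2 - pq.1) < 3 * vol := by
      rintro ⟨p, q⟩ ⟨⟨hp, hq⟩, hle'⟩
      refine lt_of_le_of_ne (hle p hp q hq) (fun heq => ?_)
      have hpq : p ≠ q := by
        rintro rfl
        simp only [sub_self] at heq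
        rw [M6_Ahat_zero] at heq
        linarith
      have h1 := hBp p hp q hq (hhit p hp q hq hpq heq)
      have hle'' : avgSeg b p q ≤ IB / vol + bt / 4 := hle'
      linarith
    obtain ⟨η, hη, hgap⟩ := M6_gap hWc hFc hWlt
    set ε := min 1 (η / (2 * (3 * vol))) with hε
    have hε0 : 0 < ε := lt_min one_pos (by positivity)
    have hε1 : ε ≤ 1 := min_le_left _ _
    have hεM : ε * (3 * vol) ≤ η / 2 := by
      have h1 : ε ≤ η / (2 * (3 * vol)) := min_le_right _ _
      calc ε * (3 * vol) ≤ η / (2 * (3 * vol)) * (3 * vol) := by gcongr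
        _ = η / 2 := by field_simp
    set g : E3 → ℝ := fun x => (1 + ε) + (-ε) * b x with hg
    have hgavg : ∀ p q, avgSeg g p q = 1 + ε - ε * avgSeg b p q := by
      intro p q
      rw [hg, M6_avg_affine hbc]
      ring
    set IK := (1 + ε) * vol - ε * IB with hIKdef
    have hIK : ∫ x in K, g x = IK := by
      have hci : IntegrableOn (fun _ : E3 => (1 + ε : ℝ)) K :=
        integrableOn_const hKc.measure_lt_top.ne
      rw [hg, integral_add hci (hbi.const_mul _), integral_const_mul, hconst, hIKdef]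
      ring
    have hIK1 : vol ≤ IK := by
      rw [hIKdef]
      nlinarith [mul_nonneg hε0.le (sub_nonneg.2 (hIBle.trans (by nlinarith : bt / 2 * vol ≤ vol)))]
    have hIK2 : IK ≤ 2 * vol := by
      rw [hIKdef]
      nlinarith [mul_nonneg hε0.le hIB0]
    have hIK0 : 0 ≤ IK := hvolpos.le.trans hIK1
    set m1 := 1 - η / (2 * (3 * vol)) with hm1
    set m2 := 1 - ε * bt / 8 with hm2
    have hm2pos : 0 < m2 := by
      rw [hm2]
      nlinarith [mul_le_mul hε1 hbt1 hbt0.le zero_le_one]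
    have hm1lt : m1 < 1 := by
      rw [hm1]
      have : 0 < η / (2 * (3 * vol)) := by positivity
      linarith
    have hm2lt : m2 < 1 := by
      rw [hm2]
      have : 0 < ε * bt / 8 := by positivity
      linarith
    refine ⟨g, 3 * max m1 m2, ?_, ?_, ?_, ?_, ?_⟩
    · have : 0 < max m1 m2 := lt_max_of_lt_right hm2pos
      linarith
    · have : max m1 m2 < 1 := max_lt hm1lt hm2lt
      linarith
    · rw [hg]
      exact continuous_const.add (continuous_const.mul hbc)
    · intro x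
      obtain ⟨h0, h1⟩ := hb01 x
      constructor
      · show 1 ≤ (1 + ε) + (-ε) * b x
        nlinarith [mul_le_mul_of_nonneg_left h1 hε0.le]
      · show (1 + ε) + (-ε) * b x ≤ 2
        nlinarith [mul_nonneg hε0.le h0]
    · intro p hp q hq
      rw [hgavg, hIK]
      have hF0 := hnn (q - p)
      have hB0 : 0 ≤ avgSeg b p q := M6_avg_nonneg (fun x => (hb01 x).1) p q
      by_cases hw : (p, q) ∈ W
      · have hF1 : Ahat K (q - p) ≤ 3 * vol - η := hgap (p, q) hw
        exact M6_alg_in hε0 hB0 hF0 hF1 hη hvolpos hεM hm1 hIK1 (le_max_left m1 m2)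
      · have hlt : IB / vol + bt / 4 < avgSeg b p q := by
          by_contra hcon
          exact hw ⟨⟨hp, hq⟩, not_lt.1 hcon⟩
        have hF1 : Ahat K (q - p) ≤ 3 * vol := hle p hp q hq
        exact M6_alg_out hε0 hF0 hF1 hvolpos hlt hIBv hbt0 hbt1 hIKdef hIK2 hIK0 hm2
          (le_max_right m1 m2)

end Vale.Agent.Lib.P243.R3
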