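import Mathlib
import Vale.Agent.Lib.P243.Defs
import Vale.Agent.Lib.P243.R3.Defs
import Vale.Agent.Lib.P243.R3.M1
import Vale.Agent.Lib.P243.R3.helper70.M7

/-!
# P243 (R3), module M7: transfer of a calibration to a nearby body (skeleton name)

The statement of the skeleton, obtained from `H70.M7_good_transfer_of` and the module M1
(`M1c_Ahat_mono`, `M1e_Ahat_hom`).
-/

namespace Vale.Agent.Lib.P243.R3

open MeasureTheory Set

theorem M7_good_transfer {Ks K : Set E3} (hKs : Body Ks) (hK : Body K) (c : E3) {η : ℝ}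
    (hc : c ∈ Ks)
    (hη0 : 0 < η) (hη : η ≤ 1 / 24) (h1 : hom c (1 - η) '' Ks ⊆ K)
    (h2 : K ⊆ hom c (1 + η) '' Ks) {g : E3 → ℝ} {Θ : ℝ} (hΘ : 0 < Θ) (hG : Good Ks g Θ) :
    Good K (fun x => g (hom c (1 + η)⁻¹ x)) (Θ / (1 - 12 * η)) :=
  H70.M7_good_transfer_of (fun a b _ d e f w => M1c_Ahat_mono a b d e f w)
    (fun c _ hr K w => M1e_Ahat_hom c hr K w) hKs hK c hc hη0 hη h1 h2 hΘ hG

end Vale.Agent.Lib.P243.R3
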