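import Mathlib
import Vale.Agent.Lib.P243.Defs
import Vale.Agent.Lib.P243.R3.Defs

/-!
# P243-R3, piece M8a: affine normalisation by a tetrahedron of maximal volume

Every convex body `K` of Euclidean 3-space has an affine image between the standard simplex
`Simp3` and the cube `Cube3`.
-/

namespace Vale.Agent.Lib.P243.R3

open Set Module

/-- The standard basis of `E3`. -/
noncomputable def M8a_b : Basis (Fin 3) ℝ E3 := (EuclideanSpace.basisFun (Fin 3) ℝ).toBasis

/-- The three edge vectors of a 4-tuple of points. -/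
def M8a_edges (x : Fin 4 → E3) : Fin 3 → E3 := fun i => x i.succ - x 0

/-- The determinant of the edge vectors. -/
noncomputable def M8a_D (x : Fin 4 → E3) : ℝ := M8a_b.det (M8a_edges x)

theorem M8a_repr (y : E3) (i : Fin 3) : M8a_b.repr y i = y i := by
  unfold M8a_b
  rw [OrthonormalBasis.coe_toBasis_repr_apply, EuclideanSpace.basisFun_repr]

theorem M8a_D_continuous : Continuous M8a_D := by
  unfold M8a_D
  simp only [Basis.det_apply]
  apply Continuous.matrix_det
  apply continuous_matrix
  intro i j
  simp only [Basis.toMatrix_apply, M8a_repr, M8a_edges]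
  have h1 : Continuous fun x : Fin 4 → E3 => x j.succ - x 0 :=
    (continuous_apply j.succ).sub (continuous_apply 0)
  exact (EuclideanSpace.proj i).continuous.comp h1

theorem M8a_edges_update (x : Fin 4 → E3) (i : Fin 3) (z : E3) :
    M8a_edges (Function.update x i.succ z) = Function.update (M8a_edges x) i (z - x 0) := by
  funext j
  unfold M8a_edges
  have h0 : (0 : Fin 4) ≠ i.succ := (Fin.succ_ne_zero i).symm
  rw [Function.update_of_ne h0]
  by_cases hj : j = i
  · subst hj
    rw [Function.update_self, Function.update_self]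
  · have hj' : j.succ ≠ i.succ := fun h => hj (Fin.succ_injective _ h)
    rw [Function.update_of_ne hj', Function.update_of_ne hj]

theorem M8a_exists_normalizing {K : Set E3} (hK : Body K) :
    ∃ (L : E3 ≃L[ℝ] E3) (v : E3), Simp3 ⊆ aff L v '' K ∧ aff L v '' K ⊆ Cube3 := by
  classical
  have hcomp : IsCompact (Set.pi Set.univ (fun _ : Fin 4 => K)) :=
    isCompact_univ_pi (fun _ => hK.compact)
  obtain ⟨p, hp⟩ := hK.int
  have hpK : p ∈ K := interior_subset hp
  have hne : (Set.pi Set.univ (fun _ : Fin 4 => K)).Nonempty := ⟨fun _ => p, fun i _ => hpK⟩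
  obtain ⟨x, hx, hmax⟩ := hcomp.exists_isMaxOn hne
    (continuous_abs.comp M8a_D_continuous).continuousOn
  have hmax' : ∀ y : Fin 4 → E3, (∀ i, y i ∈ K) → |M8a_D y| ≤ |M8a_D x| := by
    intro y hy
    exact isMaxOn_iff.1 hmax y (fun i _ => hy i)
  have hxK : ∀ i, x i ∈ K := fun i => hx i (Set.mem_univ i)
  -- the maximum is positive
  have hpos : 0 < |M8a_D x| := by
    obtain ⟨δ, hδ, hball⟩ := Metric.isOpen_iff.1 isOpen_interior p hp
    have hnorm : ∀ i : Fin 3, ‖M8a_b i‖ = 1 := by
      intro i
      unfold M8a_b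
      rw [OrthonormalBasis.coe_toBasis]
      exact (EuclideanSpace.basisFun (Fin 3) ℝ).orthonormal.norm_eq_one i
    have hy : ∀ i : Fin 4, (Fin.cons p (fun i : Fin 3 => p + (δ / 2) • M8a_b i) : Fin 4 → E3) i ∈ K := by
      intro i
      refine Fin.cases ?_ (fun j => ?_) i
      · rw [Fin.cons_zero]
        exact hpK
      · rw [Fin.cons_succ]
        apply interior_subset
        apply hball
        rw [Metric.mem_ball, dist_eq_norm, add_sub_cancel_left, norm_smul, hnorm j, mul_one,
          Real.norm_eq_abs, abs_of_pos (by linarith)]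
        linarith
    have hD : M8a_D (Fin.cons p (fun i : Fin 3 => p + (δ / 2) • M8a_b i) : Fin 4 → E3) =
        (δ / 2) ^ 3 := by
      unfold M8a_D
      have he : M8a_edges (Fin.cons p (fun i : Fin 3 => p + (δ / 2) • M8a_b i) : Fin 4 → E3) =
          fun i => (δ / 2) • M8a_b i := by
        funext i
        unfold M8a_edges
        rw [Fin.cons_succ, Fin.cons_zero, add_sub_cancel_left]
      rw [he, AlternatingMap.map_smul_univ, Basis.det_self, Finset.prod_const, Finset.card_univ,
        Fintype.card_fin, smul_eq_mul, mul_one]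
    have h1 := hmax' _ hy
    rw [hD] at h1
    have h2 : 0 < |(δ / 2) ^ 3| := abs_pos.2 (by positivity)
    linarith
  have hdet : M8a_b.det (M8a_edges x) ≠ 0 := fun h => by
    unfold M8a_D at hpos
    rw [h, abs_zero] at hpos
    exact lt_irrefl _ hpos
  obtain ⟨hli, hsp⟩ := (M8a_b.is_basis_iff_det).2 (isUnit_iff_ne_zero.2 hdet)
  obtain ⟨c, hc⟩ : ∃ c : Basis (Fin 3) ℝ E3, ⇑c = M8a_edges x :=
    ⟨Basis.mk hli hsp.ge, Basis.coe_mk hli hsp.ge⟩
  obtain ⟨L, hL⟩ : ∃ L : E3 ≃L[ℝ] E3, ∀ z i, (L z) i = c.repr z i :=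
    ⟨c.equivFun.toContinuousLinearEquiv.trans (EuclideanSpace.equiv (Fin 3) ℝ).symm,
      fun z i => rfl⟩
  have haff : ∀ z i, (aff L (-L (x 0)) z) i = c.repr (z - x 0) i := by
    intro z i
    show (L z + -L (x 0)) i = c.repr (z - x 0) i
    rw [← hL, map_sub, sub_eq_add_neg]
  refine ⟨L, -L (x 0), ?_, ?_⟩
  · -- the simplex is inside the image
    intro y hy
    obtain ⟨hy0, hy1⟩ := hy
    have hmem : ∑ k : Fin 4, (Fin.cons (1 - (y 0 + y 1 + y 2)) (fun i : Fin 3 => y i) : Fin 4 → ℝ) k • x k ∈ K := by
      apply hK.conv.sum_mem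
      · intro k _
        refine Fin.cases ?_ (fun j => ?_) k
        · rw [Fin.cons_zero]
          linarith
        · rw [Fin.cons_succ]
          exact hy0 j
      · rw [Fin.sum_univ_succ, Fin.cons_zero]
        simp only [Fin.cons_succ]
        rw [Fin.sum_univ_three]
        ring
      · intro k _
        exact hxK k
    have hsum : ∑ k : Fin 4, (Fin.cons (1 - (y 0 + y 1 + y 2)) (fun i : Fin 3 => y i) : Fin 4 → ℝ) k • x k =
        x 0 + ∑ i : Fin 3, y i • M8a_edges x i := by
      rw [Fin.sum_univ_succ, Fin.cons_zero]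
      simp only [Fin.cons_succ, M8a_edges, smul_sub, Finset.sum_sub_distrib, ← Finset.sum_smul]
      rw [Fin.sum_univ_three (fun i => y i)]
      module
    rw [hsum] at hmem
    refine ⟨_, hmem, ?_⟩
    ext i
    rw [haff, add_sub_cancel_left, ← hc, Basis.repr_sum_self]
  · -- the image is inside the cube
    rintro _ ⟨z, hz, rfl⟩
    intro i
    rw [haff]
    have h1 := congrArg (fun f : E3 →ₗ[ℝ] ℝ => f (z - x 0))
      (Basis.det_smul_mk_coord_eq_det_update M8a_b hli hsp.ge i)
    simp only [LinearMap.smul_apply, smul_eq_mul, MultilinearMap.toLinearMap_apply,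
      AlternatingMap.coe_multilinearMap] at h1
    have hcoord : (Basis.mk hli hsp.ge).coord i (z - x 0) = c.repr (z - x 0) i := by
      have hcc : c = Basis.mk hli hsp.ge := by
        apply Basis.eq_of_apply_eq
        intro j
        rw [Basis.mk_apply, hc]
      rw [hcc]
      rfl
    rw [hcoord, ← M8a_edges_update] at h1
    have hy : ∀ k, (Function.update x i.succ z) k ∈ K := by
      intro k
      by_cases hk : k = i.succ
      · subst hk
        rw [Function.update_self]
        exact hz
      · rw [Function.update_of_ne hk]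
        exact hxK k
    have h2 := hmax' _ hy
    unfold M8a_D at h2 hpos
    rw [← h1, abs_mul] at h2
    by_contra hgt
    rw [not_le] at hgt
    have h3 : |M8a_b.det (M8a_edges x)| * 1 < |M8a_b.det (M8a_edges x)| * |c.repr (z - x 0) i| :=
      mul_lt_mul_of_pos_left hgt hpos
    linarith

end Vale.Agent.Lib.P243.R3
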