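import Mathlib
import Vale.Agent.Lib.P243.Defs
import Vale.Agent.Lib.P243.R3.Defs

/-!
# P243, `r_3 > 1/3`, module M8bc: affine invariance of `Body` and `Good`

The file is self-contained: `M8bc_Ahat_aff` is an own proof of the scaling of `Ahat` under
affine maps (statement of M1d), so no other module is needed.
-/

namespace Vale.Agent.Lib.P243.R3

open MeasureTheory Set Vale.Agent.Lib.P243
open scoped Pointwise

theorem M8bc_aff_continuous (L : E3 ≃L[ℝ] E3) (v : E3) : Continuous (aff L v) := by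
  unfold aff
  exact L.continuous.add continuous_const

theorem M8bc_aff_injective (L : E3 ≃L[ℝ] E3) (v : E3) : Function.Injective (aff L v) := by
  intro x y h
  unfold aff at h
  exact L.injective (add_right_cancel h)

theorem M8bc_aff_sub (L : E3 ≃L[ℝ] E3) (v : E3) (p q : E3) :
    aff L v q - aff L v p = L (q - p) := by
  unfold aff
  rw [map_sub]
  abel

theorem M8bc_aff_seg (L : E3 ≃L[ℝ] E3) (v : E3) (p q : E3) (t : ℝ) :
    aff L v (p + t • (q - p)) = aff L v p + t • (aff L v q - aff L v p) := by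
  rw [M8bc_aff_sub]
  unfold aff
  rw [map_add, map_smul]
  abel

theorem M8bc_image_add_segment (L : E3 ≃L[ℝ] E3) (v : E3) (K : Set E3) (w : E3) :
    aff L v '' K + segment ℝ (0 : E3) (L w) = aff L v '' (K + segment ℝ (0 : E3) w) := by
  ext z
  constructor
  · rintro ⟨_, ⟨x, hx, rfl⟩, s, hs, rfl⟩
    rw [segment_eq_image] at hs
    obtain ⟨θ, hθ, rfl⟩ := hs
    refine ⟨x + θ • w, ⟨x, hx, θ • w, ?_, rfl⟩, ?_⟩
    · rw [segment_eq_image]
      exact ⟨θ, hθ, by simp⟩
    · simp only [aff, map_add, map_smul, smul_zero, zero_add]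
      abel
  · rintro ⟨_, ⟨x, hx, s, hs, rfl⟩, rfl⟩
    rw [segment_eq_image] at hs
    obtain ⟨θ, hθ, rfl⟩ := hs
    refine ⟨aff L v x, ⟨x, hx, rfl⟩, θ • L w, ?_, ?_⟩
    · rw [segment_eq_image]
      exact ⟨θ, hθ, by simp⟩
    · simp only [aff, map_add, map_smul, smul_zero, zero_add]
      abel

theorem M8bc_volume_aff (L : E3 ≃L[ℝ] E3) (v : E3) (S : Set E3) :
    volume (aff L v '' S) = ENNReal.ofReal |LinearMap.det (L : E3 →ₗ[ℝ] E3)| * volume S := by
  have h1 : aff L v '' S = (fun y : E3 => y + v) '' ((L : E3 →ₗ[ℝ] E3) '' S) := by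
    rw [Set.image_image]
    rfl
  rw [h1, Set.image_add_right, measure_preimage_add_right, Measure.addHaar_image_linearMap]

/-- Scaling of `Ahat` under an affine map (the statement of module M1d, own proof). -/
theorem M8bc_Ahat_aff (L : E3 ≃L[ℝ] E3) (v : E3) (K : Set E3) (w : E3) :
    Ahat (aff L v '' K) (L w) = |LinearMap.det (L : E3 →ₗ[ℝ] E3)| * Ahat K w := by
  unfold Ahat
  rw [M8bc_image_add_segment, M8bc_volume_aff, M8bc_volume_aff, ENNReal.toReal_mul,
    ENNReal.toReal_mul, ENNReal.toReal_ofReal (abs_nonneg _)]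
  ring

theorem M8b_body_aff (L : E3 ≃L[ℝ] E3) (v : E3) {K : Set E3} (hK : Body K) :
    Body (aff L v '' K) := by
  refine ⟨?_, hK.compact.image (M8bc_aff_continuous L v), ?_⟩
  · rintro _ ⟨x, hx, rfl⟩ _ ⟨y, hy, rfl⟩ a b ha hb hab
    refine ⟨a • x + b • y, hK.conv hx hy ha hb hab, ?_⟩
    have hv : a • v + b • v = v := by rw [← add_smul, hab, one_smul]
    unfold aff
    rw [map_add, map_smul, map_smul, smul_add, smul_add]
    calc a • L x + b • L y + v = a • L x + b • L y + (a • v + b • v) := by rw [hv]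
      _ = a • L x + a • v + (b • L y + b • v) := by abel
  · let h : E3 ≃ₜ E3 := L.toHomeomorph.trans (Homeomorph.addRight v)
    have hh : (h : E3 → E3) = aff L v := by
      funext x
      rfl
    have himg : interior (aff L v '' K) = aff L v '' interior K := by
      rw [← hh]
      exact (h.image_interior K).symm
    rw [himg]
    exact hK.int.image _

theorem M8c_good_of_aff (L : E3 ≃L[ℝ] E3) (v : E3) {K : Set E3} (hK : Body K) {g : E3 → ℝ}
    {Θ : ℝ} (hG : Good (aff L v '' K) g Θ) : Good K (fun x => g (aff L v x)) Θ := by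
  obtain ⟨hc, hb, hmain⟩ := hG
  refine ⟨hc.comp (M8bc_aff_continuous L v), fun x => hb (aff L v x), ?_⟩
  intro p hp q hq
  have h1 := hmain (aff L v p) (mem_image_of_mem _ hp) (aff L v q) (mem_image_of_mem _ hq)
  -- the average over the segment
  have havg : avgSeg (fun x => g (aff L v x)) p q = avgSeg g (aff L v p) (aff L v q) := by
    unfold avgSeg
    refine intervalIntegral.integral_congr (fun t _ => ?_)
    show g (aff L v (p + t • (q - p))) = g (aff L v p + t • (aff L v q - aff L v p))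
    rw [M8bc_aff_seg]
  -- the determinant
  have hdet0 : LinearMap.det (L : E3 →ₗ[ℝ] E3) ≠ 0 :=
    (LinearEquiv.isUnit_det' L.toLinearEquiv).ne_zero
  have hdpos : 0 < |LinearMap.det (L : E3 →ₗ[ℝ] E3)| := abs_pos.mpr hdet0
  -- the area functional
  have hA : Ahat (aff L v '' K) (aff L v q - aff L v p) =
      |LinearMap.det (L : E3 →ₗ[ℝ] E3)| * Ahat K (q - p) := by
    rw [M8bc_aff_sub]
    exact M8bc_Ahat_aff L v K (q - p)
  -- change of variables
  have hint : ∫ x in aff L v '' K, g x =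
      |LinearMap.det (L : E3 →ₗ[ℝ] E3)| * ∫ x in K, g (aff L v x) := by
    have hmeas : MeasurableSet K := hK.compact.isClosed.measurableSet
    have hderiv : ∀ x ∈ K, HasFDerivWithinAt (aff L v) (L : E3 →L[ℝ] E3) K x := by
      intro x _
      have h2 : HasFDerivAt (fun y : E3 => (L : E3 →L[ℝ] E3) y + v) (L : E3 →L[ℝ] E3) x :=
        ((L : E3 →L[ℝ] E3).hasFDerivAt).add_const v
      exact h2.hasFDerivWithinAt
    have h3 := integral_image_eq_integral_abs_det_fderiv_smul (volume : Measure E3) hmeas hderiv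
      ((M8bc_aff_injective L v).injOn) g
    rw [h3]
    simp only [smul_eq_mul]
    rw [integral_const_mul]
    rfl
  rw [havg]
  rw [hA, hint] at h1
  have h4 : |LinearMap.det (L : E3 →ₗ[ℝ] E3)| *
      (avgSeg g (aff L v p) (aff L v q) * Ahat K (q - p)) ≤
      |LinearMap.det (L : E3 →ₗ[ℝ] E3)| * (Θ * ∫ x in K, g (aff L v x)) := by
    calc |LinearMap.det (L : E3 →ₗ[ℝ] E3)| * (avgSeg g (aff L v p) (aff L v q) * Ahat K (q - p))
        = avgSeg g (aff L v p) (aff L v q) *
            (|LinearMap.det (L : E3 →ₗ[ℝ] E3)| * Ahat K (q - p)) := by ring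
      _ ≤ Θ * (|LinearMap.det (L : E3 →ₗ[ℝ] E3)| * ∫ x in K, g (aff L v x)) := h1
      _ = |LinearMap.det (L : E3 →ₗ[ℝ] E3)| * (Θ * ∫ x in K, g (aff L v x)) := by ring
  exact le_of_mul_le_mul_left h4 hdpos

end Vale.Agent.Lib.P243.R3
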