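import Mathlib
import Vale.Agent.Lib.P243.Defs
import Vale.Agent.Lib.P243.R3.Defs

/-!
# P243-R3, pool job M9a: a ball inside the standard simplex, the cube inside a ball
-/

namespace Vale.Agent.Lib.P243.R3

theorem M9a_aux_coord (x c : E3) (i : Fin 3) : |x i - c i| ≤ dist x c := by
  have h := PiLp.norm_apply_le (x - c) i
  rw [dist_eq_norm]
  simpa [Real.norm_eq_abs] using h

theorem M9a_simp3_ball : ∃ (c : E3) (ρ : ℝ), 0 < ρ ∧ Metric.closedBall c ρ ⊆ Simp3 := by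
  refine ⟨WithLp.toLp 2 (fun _ => (1 / 4 : ℝ)), 1 / 12, by norm_num, ?_⟩
  intro x hx
  rw [Metric.mem_closedBall] at hx
  have hc : ∀ i : Fin 3, |x i - 1 / 4| ≤ 1 / 12 := by
    intro i
    have h := M9a_aux_coord x (WithLp.toLp 2 (fun _ => (1 / 4 : ℝ))) i
    have h2 : (WithLp.toLp 2 (fun _ : Fin 3 => (1 / 4 : ℝ)) : E3) i = 1 / 4 := rfl
    rw [h2] at h
    linarith
  have h0 := abs_le.mp (hc 0)
  have h1 := abs_le.mp (hc 1)
  have h2 := abs_le.mp (hc 2)
  refine ⟨?_, ?_⟩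
  · intro i
    have hi := abs_le.mp (hc i)
    linarith [hi.1]
  · linarith [h0.2, h1.2, h2.2]

theorem M9c0_cube_ball : Cube3 ⊆ Metric.closedBall (0 : E3) 2 := by
  intro x hx
  rw [Metric.mem_closedBall, dist_zero_right, EuclideanSpace.norm_eq]
  apply Real.sqrt_le_iff.mpr
  refine ⟨by norm_num, ?_⟩
  rw [Fin.sum_univ_three]
  have hb : ∀ i : Fin 3, ‖x i‖ ^ 2 ≤ 1 := by
    intro i
    have hi := hx i
    rw [Real.norm_eq_abs]
    have h0 : 0 ≤ |x i| := abs_nonneg _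
    nlinarith
  have := hb 0
  have := hb 1
  have := hb 2
  linarith

end Vale.Agent.Lib.P243.R3
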