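import Mathlib
import Vale.Agent.Lib.P243.Defs
import Vale.Agent.Lib.P243.R3.Defs

/-!
# P243-R3, piece M9b: Hausdorff-close convex bodies with a common inscribed ball are radially close
-/

namespace Vale.Agent.Lib.P243.R3

open MeasureTheory Set

theorem M9b_sandwich {Ks K : Set E3} (hKs : Body Ks) (hK : Body K) (c : E3) {ρ : ℝ}
    (hρ : 0 < ρ) (hb1 : Metric.closedBall c ρ ⊆ Ks) (hb2 : Metric.closedBall c ρ ⊆ K) {η : ℝ}
    (hη0 : 0 < η) (hη1 : η < 1) (hd : Metric.hausdorffDist K Ks < η * ρ) :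
    hom c (1 - η) '' Ks ⊆ K ∧ K ⊆ hom c (1 + η) '' Ks := by
  have hcK : c ∈ K := hb2 (Metric.mem_closedBall_self hρ.le)
  have hcKs : c ∈ Ks := hb1 (Metric.mem_closedBall_self hρ.le)
  have hfin : Metric.hausdorffEDist K Ks ≠ ⊤ :=
    Metric.hausdorffEDist_ne_top_of_nonempty_of_bounded ⟨c, hcK⟩ ⟨c, hcKs⟩
      hK.compact.isBounded hKs.compact.isBounded
  have h1η : 0 < 1 - η := by linarith
  have hη' : η ≠ 0 := hη0.ne'
  constructor
  · rintro y ⟨x, hx, rfl⟩
    obtain ⟨x', hx', hdist⟩ := Metric.exists_dist_lt_of_hausdorffDist_lt' hx hd hfin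
    have hcoef : 0 ≤ (1 - η) / η := by positivity
    have hzK : c + ((1 - η) / η) • (x - x') ∈ K := by
      apply hb2
      rw [Metric.mem_closedBall, dist_eq_norm, add_sub_cancel_left, norm_smul, Real.norm_eq_abs,
        abs_of_nonneg hcoef]
      have h1 : ‖x - x'‖ ≤ η * ρ := by
        rw [← dist_eq_norm, dist_comm]; exact hdist.le
      calc (1 - η) / η * ‖x - x'‖ ≤ (1 - η) / η * (η * ρ) :=
            mul_le_mul_of_nonneg_left h1 hcoef
        _ = (1 - η) * ρ := by field_simp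
        _ ≤ ρ := by nlinarith
    have hy : hom c (1 - η) x = (1 - η) • x' + η • (c + ((1 - η) / η) • (x - x')) := by
      unfold hom
      match_scalars <;> field_simp <;> ring
    rw [hy]
    exact hK.conv hx' hzK h1η.le hη0.le (by ring)
  · intro x hx
    obtain ⟨y, hy, hdist⟩ := Metric.exists_dist_lt_of_hausdorffDist_lt hx hd hfin
    have hzKs : c + η⁻¹ • (x - y) ∈ Ks := by
      apply hb1
      rw [Metric.mem_closedBall, dist_eq_norm, add_sub_cancel_left, norm_smul, Real.norm_eq_abs,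
        abs_of_pos (inv_pos.mpr hη0)]
      have h1 : ‖x - y‖ ≤ η * ρ := by
        rw [← dist_eq_norm]; exact hdist.le
      calc η⁻¹ * ‖x - y‖ ≤ η⁻¹ * (η * ρ) :=
            mul_le_mul_of_nonneg_left h1 (inv_pos.mpr hη0).le
        _ = ρ := by field_simp
    have h1η' : (0 : ℝ) < 1 + η := by linarith
    refine ⟨(1 + η)⁻¹ • y + (η / (1 + η)) • (c + η⁻¹ • (x - y)), ?_, ?_⟩
    · exact hKs.conv hy hzKs (by positivity) (by positivity) (by field_simp)
    · unfold hom
      match_scalars <;> field_simp <;> ring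

end Vale.Agent.Lib.P243.R3
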