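import Mathlib
import Vale.Agent.Lib.P243.Defs
import Vale.Agent.Lib.P243.R3.Defs

/-!
# P243, `r_3 > 1/3`, module M9c1: Blaschke selection (raw form)

A sequence of nonempty compact subsets of a fixed closed ball of Euclidean 3-space has a
subsequence that converges in the Hausdorff distance to a nonempty compact set.
-/

namespace Vale.Agent.Lib.P243.R3

open TopologicalSpace Filter Metric

theorem M9c1_blaschke_raw (Kseq : ℕ → Set E3) (R : ℝ)
    (h : ∀ n, IsCompact (Kseq n) ∧ (Kseq n).Nonempty ∧ Kseq n ⊆ Metric.closedBall (0 : E3) R) :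
    ∃ Ks : Set E3, IsCompact Ks ∧ Ks.Nonempty ∧ ∃ φ : ℕ → ℕ, StrictMono φ ∧
      Filter.Tendsto (fun n => Metric.hausdorffDist (Kseq (φ n)) Ks) Filter.atTop (nhds 0) := by
  have : CompactSpace (Metric.closedBall (0 : E3) R) :=
    isCompact_iff_compactSpace.mp (isCompact_closedBall 0 R)
  -- the sequence inside the compact metric space of nonempty compact subsets of the ball
  have hcpt : ∀ n, IsCompact
      ((Subtype.val : Metric.closedBall (0 : E3) R → E3) ⁻¹' Kseq n) := fun n =>
    ((h n).1.isClosed.preimage continuous_subtype_val).isCompact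
  have hne : ∀ n,
      ((Subtype.val : Metric.closedBall (0 : E3) R → E3) ⁻¹' Kseq n).Nonempty := fun n => by
    obtain ⟨x, hx⟩ := (h n).2.1
    exact ⟨⟨x, (h n).2.2 hx⟩, hx⟩
  let K' : ℕ → NonemptyCompacts (Metric.closedBall (0 : E3) R) := fun n =>
    ⟨⟨(Subtype.val : Metric.closedBall (0 : E3) R → E3) ⁻¹' Kseq n, hcpt n⟩, hne n⟩
  obtain ⟨L, φ, hφ, hlim⟩ := CompactSpace.tendsto_subseq K'
  refine ⟨Subtype.val '' (L : Set (Metric.closedBall (0 : E3) R)),
    L.isCompact.image continuous_subtype_val, L.nonempty.image _, φ, hφ, ?_⟩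
  have hdist : ∀ n, Metric.hausdorffDist (Kseq (φ n))
      (Subtype.val '' (L : Set (Metric.closedBall (0 : E3) R))) = dist (K' (φ n)) L := by
    intro n
    have himg : Kseq (φ n) = Subtype.val ''
        ((K' (φ n) : NonemptyCompacts (Metric.closedBall (0 : E3) R)) :
          Set (Metric.closedBall (0 : E3) R)) := by
      show Kseq (φ n) = Subtype.val ''
        ((Subtype.val : Metric.closedBall (0 : E3) R → E3) ⁻¹' Kseq (φ n))
      rw [Subtype.image_preimage_coe]
      exact (Set.inter_eq_right.mpr (h (φ n)).2.2).symm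
    rw [himg, Metric.hausdorffDist_image isometry_subtype_coe]
    rfl
  have := tendsto_iff_dist_tendsto_zero.mp hlim
  simpa [hdist] using this

end Vale.Agent.Lib.P243.R3
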