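import Mathlib
import Vale.Agent.Lib.P243.Defs
import Vale.Agent.Lib.P243.R3.Defs
import Vale.Agent.Lib.P243.R3.M9a

/-!
# P243, `r_3 > 1/3`, module M9c2: Hausdorff limits of normalised bodies

If compact convex bodies `Kseq n` with `Simp3 ⊆ Kseq n ⊆ Cube3` converge in the Hausdorff
distance to a nonempty compact set `Ks`, then `Ks` is a convex body with `Simp3 ⊆ Ks ⊆ Cube3`.
-/

namespace Vale.Agent.Lib.P243.R3

open MeasureTheory Set Filter Vale.Agent.Lib.P243

/-- The cube `[-1, 1]^3` is closed. -/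
theorem M9c2_cube_closed : IsClosed Cube3 := by
  have h : Cube3 = ⋂ i : Fin 3, {x : E3 | |x i| ≤ 1} := by
    ext x
    simp [Cube3]
  rw [h]
  refine isClosed_iInter fun i => isClosed_le ?_ continuous_const
  fun_prop

/-- A point that is approximated by points of the `Kseq n` lies in the Hausdorff limit. -/
theorem M9c2_mem_of_approx (Kseq : ℕ → Set E3) (Ks : Set E3) (hKs : IsCompact Ks)
    (hne : Ks.Nonempty) (hb : ∀ n, IsCompact (Kseq n) ∧ (Kseq n).Nonempty)
    (hlim : Tendsto (fun n => Metric.hausdorffDist (Kseq n) Ks) atTop (nhds 0))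
    (x : E3) (e : ℕ → ℝ) (he : Tendsto e atTop (nhds 0))
    (hx : ∀ n, ∃ z ∈ Kseq n, dist x z ≤ e n) : x ∈ Ks := by
  rw [hKs.isClosed.mem_iff_infDist_zero hne]
  have hfin : ∀ n, Metric.hausdorffEDist (Kseq n) Ks ≠ ⊤ := fun n =>
    Metric.hausdorffEDist_ne_top_of_nonempty_of_bounded (hb n).2 hne (hb n).1.isBounded
      hKs.isBounded
  have hle : ∀ n, Metric.infDist x Ks ≤ e n + Metric.hausdorffDist (Kseq n) Ks := by
    intro n
    obtain ⟨z, hz, hxz⟩ := hx n
    have h1 : Metric.infDist x Ks ≤ Metric.infDist z Ks + dist x z :=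
      Metric.infDist_le_infDist_add_dist
    have h2 : Metric.infDist z Ks ≤ Metric.hausdorffDist (Kseq n) Ks :=
      Metric.infDist_le_hausdorffDist_of_mem hz (hfin n)
    linarith
  have hl : Tendsto (fun n => e n + Metric.hausdorffDist (Kseq n) Ks) atTop (nhds 0) := by
    simpa using he.add hlim
  exact le_antisymm (ge_of_tendsto' hl hle) Metric.infDist_nonneg

/-- Every point of the Hausdorff limit is approximated by points of the `Kseq n`. -/
theorem M9c2_exists_approx (Kseq : ℕ → Set E3) (Ks : Set E3) (hKs : IsCompact Ks)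
    (hne : Ks.Nonempty) (hb : ∀ n, IsCompact (Kseq n) ∧ (Kseq n).Nonempty)
    (x : E3) (hx : x ∈ Ks) (n : ℕ) :
    ∃ z ∈ Kseq n, dist x z < Metric.hausdorffDist (Kseq n) Ks + 1 / ((n : ℝ) + 1) := by
  have hfin : Metric.hausdorffEDist (Kseq n) Ks ≠ ⊤ :=
    Metric.hausdorffEDist_ne_top_of_nonempty_of_bounded (hb n).2 hne (hb n).1.isBounded
      hKs.isBounded
  have hpos : (0 : ℝ) < 1 / ((n : ℝ) + 1) := by positivity
  obtain ⟨z, hz, hzx⟩ := Metric.exists_dist_lt_of_hausdorffDist_lt' (r :=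
    Metric.hausdorffDist (Kseq n) Ks + 1 / ((n : ℝ) + 1)) hx (by linarith) hfin
  exact ⟨z, hz, by rwa [dist_comm]⟩

/-- The error sequence tends to zero. -/
theorem M9c2_err_tendsto (Kseq : ℕ → Set E3) (Ks : Set E3)
    (hlim : Tendsto (fun n => Metric.hausdorffDist (Kseq n) Ks) atTop (nhds 0)) :
    Tendsto (fun n : ℕ => Metric.hausdorffDist (Kseq n) Ks + 1 / ((n : ℝ) + 1)) atTop
      (nhds 0) := by
  simpa using hlim.add tendsto_one_div_add_atTop_nhds_zero_nat

theorem M9c2_limit_props (Kseq : ℕ → Set E3) (Ks : Set E3) (hKs : IsCompact Ks)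
    (hne : Ks.Nonempty) (h : ∀ n, Body (Kseq n) ∧ Simp3 ⊆ Kseq n ∧ Kseq n ⊆ Cube3)
    (hlim : Filter.Tendsto (fun n => Metric.hausdorffDist (Kseq n) Ks) Filter.atTop (nhds 0)) :
    Body Ks ∧ Simp3 ⊆ Ks ∧ Ks ⊆ Cube3 := by
  have hb : ∀ n, IsCompact (Kseq n) ∧ (Kseq n).Nonempty := fun n =>
    ⟨(h n).1.compact, (h n).1.int.mono interior_subset⟩
  have hfin : ∀ n, Metric.hausdorffEDist (Kseq n) Ks ≠ ⊤ := fun n =>
    Metric.hausdorffEDist_ne_top_of_nonempty_of_bounded (hb n).2 hne (hb n).1.isBounded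
      hKs.isBounded
  have herr := M9c2_err_tendsto Kseq Ks hlim
  -- (1) the simplex is inside the limit
  have hsimp : Simp3 ⊆ Ks := by
    intro x hx
    refine M9c2_mem_of_approx Kseq Ks hKs hne hb hlim x (fun _ => 0) tendsto_const_nhds ?_
    intro n
    exact ⟨x, (h n).2.1 hx, by simp⟩
  -- (2) the limit is inside the cube
  have hcube : Ks ⊆ Cube3 := by
    intro x hx
    have hcne : Cube3.Nonempty := (hb 0).2.mono (h 0).2.2
    rw [M9c2_cube_closed.mem_iff_infDist_zero hcne]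
    have hle : ∀ n, Metric.infDist x Cube3
        ≤ Metric.hausdorffDist (Kseq n) Ks + 1 / ((n : ℝ) + 1) := by
      intro n
      obtain ⟨z, hz, hxz⟩ := M9c2_exists_approx Kseq Ks hKs hne hb x hx n
      have h1 : Metric.infDist x Cube3 ≤ dist x z :=
        Metric.infDist_le_dist_of_mem ((h n).2.2 hz)
      linarith
    exact le_antisymm (ge_of_tendsto' herr hle) Metric.infDist_nonneg
  -- (3) the limit is convex
  have hconv : Convex ℝ Ks := by
    intro x hx y hy a b ha hb' hab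
    refine M9c2_mem_of_approx Kseq Ks hKs hne hb hlim (a • x + b • y)
      (fun n : ℕ => Metric.hausdorffDist (Kseq n) Ks + 1 / ((n : ℝ) + 1)) herr ?_
    intro n
    obtain ⟨x', hx', hxx'⟩ := M9c2_exists_approx Kseq Ks hKs hne hb x hx n
    obtain ⟨y', hy', hyy'⟩ := M9c2_exists_approx Kseq Ks hKs hne hb y hy n
    refine ⟨a • x' + b • y', (h n).1.conv hx' hy' ha hb' hab, ?_⟩
    have e1 : a • x + b • y - (a • x' + b • y') = a • (x - x') + b • (y - y') := by
      simp only [smul_sub]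
      abel
    rw [dist_eq_norm, e1]
    have h1 : ‖a • (x - x') + b • (y - y')‖ ≤ a * ‖x - x'‖ + b * ‖y - y'‖ := by
      refine (norm_add_le _ _).trans ?_
      rw [norm_smul, norm_smul, Real.norm_of_nonneg ha, Real.norm_of_nonneg hb']
    rw [dist_eq_norm] at hxx' hyy'
    have h2 : a * ‖x - x'‖ ≤ a * (Metric.hausdorffDist (Kseq n) Ks + 1 / ((n : ℝ) + 1)) :=
      mul_le_mul_of_nonneg_left hxx'.le ha
    have h3 : b * ‖y - y'‖ ≤ b * (Metric.hausdorffDist (Kseq n) Ks + 1 / ((n : ℝ) + 1)) :=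
      mul_le_mul_of_nonneg_left hyy'.le hb'
    have h4 : a * (Metric.hausdorffDist (Kseq n) Ks + 1 / ((n : ℝ) + 1))
        + b * (Metric.hausdorffDist (Kseq n) Ks + 1 / ((n : ℝ) + 1))
        = Metric.hausdorffDist (Kseq n) Ks + 1 / ((n : ℝ) + 1) := by
      rw [← add_mul, hab, one_mul]
    linarith
  -- (4) the limit has nonempty interior
  have hint : (interior Ks).Nonempty := by
    obtain ⟨c, ρ, hρ, hball⟩ := M9a_simp3_ball
    exact ⟨c, interior_mono (hball.trans hsimp)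
      (Metric.ball_subset_interior_closedBall (Metric.mem_ball_self hρ))⟩
  exact ⟨⟨hconv, hKs, hint⟩, hsimp, hcube⟩

end Vale.Agent.Lib.P243.R3
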